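import Mathlib

/-!
# Convex hulls of compact sets in finite dimension are compact; bipolar theorem for a compact set
-/

namespace Vale.Agent.P141.PL.H262

open Finset

noncomputable section

theorem isCompact_convexHull {E : Type*} [NormedAddCommGroup E] [NormedSpace ℝ E]
    [FiniteDimensional ℝ E] {K : Set E} (hK : IsCompact K) : IsCompact (convexHull ℝ K) := by
  classical
  set d := Module.finrank ℝ E + 1 with hd
  set Φ : (Fin d → ℝ) × (Fin d → E) → E := fun q => ∑ i, q.1 i • q.2 i with hΦ
  have hc : Continuous Φ := by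
    simp only [hΦ]
    fun_prop
  have hS : IsCompact (stdSimplex ℝ (Fin d) ×ˢ Set.pi Set.univ fun _ : Fin d => K) :=
    (isCompact_stdSimplex ℝ (Fin d)).prod (isCompact_univ_pi fun _ => hK)
  have e : convexHull ℝ K = Φ '' (stdSimplex ℝ (Fin d) ×ˢ Set.pi Set.univ fun _ : Fin d => K) := by
    apply Set.Subset.antisymm
    · intro x hx
      obtain ⟨ι, hι, z, w, hz, hai, hw, hw1, hx⟩ := eq_pos_convex_span_of_mem_convexHull hx
      have hcard : Fintype.card ι ≤ d := by
        rw [hd]
        exact hai.card_le_finrank_succ.trans (Nat.succ_le_succ (Submodule.finrank_le _))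
      have hne : Nonempty ι := by
        by_contra h
        rw [not_nonempty_iff] at h
        rw [Finset.univ_eq_empty, Finset.sum_empty] at hw1
        exact zero_ne_one hw1
      obtain ⟨i0⟩ := hne
      obtain ⟨em⟩ : Nonempty (ι ↪ Fin d) :=
        Function.Embedding.nonempty_of_card_le (by rw [Fintype.card_fin]; exact hcard)
      have hinj := em.injective
      refine ⟨(Function.extend em w fun _ => 0, Function.extend em z fun _ => z i0), ⟨⟨?_, ?_⟩, ?_⟩,
        ?_⟩
      · intro j
        by_cases hj : ∃ i, em i = j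
        · obtain ⟨i, rfl⟩ := hj
          simp only [hinj.extend_apply]
          exact (hw i).le
        · simp only [Function.extend_apply' _ _ _ hj]; exact le_rfl
      · rw [← hw1]
        symm
        refine Fintype.sum_of_injective em hinj _ _ (fun j hj => ?_) fun i => ?_
        · show Function.extend em w (fun _ => (0 : ℝ)) j = 0
          rw [Function.extend_apply' _ _ _ fun ⟨i, hi⟩ => hj ⟨i, hi⟩]
        · simp only [hinj.extend_apply]
      · intro j _
        by_cases hj : ∃ i, em i = j
        · obtain ⟨i, rfl⟩ := hj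
          simp only [hinj.extend_apply]
          exact hz ⟨i, rfl⟩
        · simp only [Function.extend_apply' _ _ _ hj]; exact hz ⟨i0, rfl⟩
      · rw [← hx]
        simp only [hΦ]
        symm
        refine Fintype.sum_of_injective em hinj _ _ (fun j hj => ?_) fun i => ?_
        · rw [Function.extend_apply' _ _ _ fun ⟨i, hi⟩ => hj ⟨i, hi⟩, zero_smul]
        · simp only [hinj.extend_apply]
    · rintro _ ⟨⟨w, z⟩, ⟨⟨h1, h2⟩, h3⟩, rfl⟩
      exact mem_convexHull_of_exists_fintype w z h1 h2 (fun i => h3 i (Set.mem_univ i)) rfl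
  rw [e]
  exact hS.image hc

/-- a linear functional on functions on a finite type is a sum -/
theorem dual_eq_sum {ι : Type*} [Fintype ι] [DecidableEq ι] (f : (ι → ℝ) →L[ℝ] ℝ) (x : ι → ℝ) :
    f x = ∑ i, x i * f (Pi.single i 1) := by
  conv_lhs => rw [← Finset.univ_sum_single x]
  rw [map_sum]
  refine sum_congr rfl fun i _ => ?_
  have : (Pi.single i (x i) : ι → ℝ) = x i • Pi.single i (1 : ℝ) := by
    rw [← Pi.single_smul]; simp
  rw [this, map_smul, smul_eq_mul]

/-- Bipolar theorem for a compact symmetric set `K` of functions on a finite type: if every `h`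
with `|⟨h, a⟩| ≤ 1` on `K` has `⟨s, h⟩ ≤ T`, then `s` is `T` times a convex combination. -/
theorem bipolar {ι : Type*} [Fintype ι] {K : Set (ι → ℝ)} (hK : IsCompact K)
    (h0 : (0 : ι → ℝ) ∈ K) (hs : ∀ a ∈ K, -a ∈ K) (s : ι → ℝ) {T : ℝ} (hT : 0 < T)
    (h : ∀ g : ι → ℝ, (∀ a ∈ K, |∑ i, g i * a i| ≤ 1) → ∑ i, s i * g i ≤ T) :
    ∃ (κ : Type) (_ : Fintype κ) (w : κ → ℝ) (z : κ → ι → ℝ), (∀ i, 0 ≤ w i) ∧
      ∑ i, w i = T ∧ (∀ i, z i ∈ K) ∧ ∀ p, s p = ∑ i, w i * z i p := by
  classical
  by_cases hm : T⁻¹ • s ∈ convexHull ℝ K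
  · rw [mem_convexHull_iff_exists_fintype] at hm
    obtain ⟨κ, hκ, w, z, hw, hw1, hz, e⟩ := hm
    refine ⟨κ, hκ, fun i => T * w i, z, fun i => mul_nonneg hT.le (hw i), ?_, hz, fun p => ?_⟩
    · rw [← mul_sum, hw1, mul_one]
    · have e1 := congrFun e p
      simp only [Finset.sum_apply, Pi.smul_apply, smul_eq_mul] at e1
      have : s p = T * (T⁻¹ * s p) := by field_simp
      rw [this, ← e1, mul_sum]
      exact sum_congr rfl fun i _ => by ring
  · exfalso
    obtain ⟨f, u, hu, hs'⟩ := geometric_hahn_banach_closed_point (convex_convexHull ℝ K)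
      (isCompact_convexHull hK).isClosed hm
    have hu0 : 0 < u := by
      have := hu 0 (subset_convexHull ℝ K h0)
      rwa [map_zero] at this
    set g : ι → ℝ := fun i => u⁻¹ * f (Pi.single i 1) with hg
    have key : ∀ a : ι → ℝ, ∑ i, g i * a i = u⁻¹ * f a := by
      intro a
      rw [dual_eq_sum f a, mul_sum]
      exact sum_congr rfl fun i _ => by simp only [hg]; ring
    have h1 : ∀ a ∈ K, |∑ i, g i * a i| ≤ 1 := by
      intro a ha
      rw [key, abs_mul, abs_of_pos (inv_pos.mpr hu0), inv_mul_le_iff₀ hu0, mul_one, abs_le]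
      have h2 := hu a (subset_convexHull ℝ K ha)
      have h3 := hu (-a) (subset_convexHull ℝ K (hs a ha))
      rw [map_neg] at h3
      constructor <;> linarith
    have h4 := h g h1
    have h5 : ∑ i, s i * g i = u⁻¹ * f s := by
      rw [← key]; exact sum_congr rfl fun i _ => by ring
    rw [h5] at h4
    rw [map_smul, smul_eq_mul] at hs'
    rw [inv_mul_le_iff₀ hu0] at h4
    rw [lt_inv_mul_iff₀ hT] at hs'
    linarith

end

end Vale.Agent.P141.PL.H262
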