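import Vale.Agent.P141.PL.H262.Gauge

/-!
# P141: classes below a fixed scale; damping of edge cylinders inside a root cube

`lift D n k m = D k m` for `k ≤ n`; above the scale `n` it means nice on all cubes of scale `n`.
For the classes `DC` the lifted classes are stable under damping on all sets
`{p ∈ root : (p_i, p_j) ∈ E}` (hence line energies, `gl_line` and `H970.line_mono` apply).
-/

namespace Vale.Agent.P141.PL.H262

open Finset

noncomputable section

/-- nice at scales `≤ n`, glued above -/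
def lift (D : ℕ → Pt → Set (Pt → ℝ)) (n : ℕ) (k : ℕ) (m : Pt) : Set (Pt → ℝ) :=
  if k ≤ n then D k m else {g | ∀ m', cx (k - n) m' = m → g ∈ D n m'}

theorem lift_of_le {D : ℕ → Pt → Set (Pt → ℝ)} {n k : ℕ} (h : k ≤ n) (m : Pt) :
    lift D n k m = D k m := if_pos h

theorem lift_of_lt {D : ℕ → Pt → Set (Pt → ℝ)} {n k : ℕ} (h : n < k) (m : Pt) :
    lift D n k m = {g | ∀ m', cx (k - n) m' = m → g ∈ D n m'} := if_neg (by omega)

theorem cx_sub {n k : ℕ} (h : n ≤ k) (p : Pt) : cx (k - n) (cx n p) = cx k p := by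
  unfold cx
  simp only [ix_ix]
  rw [show n + (k - n) = k by omega]

theorem nice_lift {D : ℕ → Pt → Set (Pt → ℝ)} (hD : Nice D) (n : ℕ) : Nice (lift D n) where
  cc := by
    intro k m
    by_cases h : k ≤ n
    · rw [lift_of_le h]; exact hD.cc k m
    · push Not at h
      rw [lift_of_lt h]
      refine ⟨?_, ?_, ?_, ?_⟩
      · have : {g | ∀ m', cx (k - n) m' = m → g ∈ D n m'} =
            ⋂ m', ⋂ (_ : cx (k - n) m' = m), D n m' := by
          ext g
          simp only [Set.mem_ofPred_eq, Set.mem_iInter]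
        rw [this]
        exact isClosed_iInter fun m' => isClosed_iInter fun _ => (hD.cc n m').closed
      · intro f hf g hg s t hs ht hst m' hm'
        exact (hD.cc n m').convex (hf m' hm') (hg m' hm') hs ht hst
      · intro m' _
        exact (hD.cc n m').zero
      · intro f g hfg hf m' hm'
        refine (hD.cc n m').loc f g (fun p hp => hfg p ?_) (hf m' hm')
        rw [mem_cb] at hp ⊢
        rw [← cx_sub h.le, hp, hm']
  glue := by
    intro k m g hg
    by_cases h : k + 1 ≤ n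
    · rw [lift_of_le h]
      refine hD.glue k m g fun m' hm' => ?_
      have := hg m' hm'
      rwa [lift_of_le (by omega)] at this
    · push Not at h
      rw [lift_of_lt h]
      intro m' hm'
      by_cases hk : k ≤ n
      · -- `k = n`
        have e : k = n := by omega
        subst e
        have h1 : k + 1 - k = 1 := by omega
        rw [h1] at hm'
        have := hg m' hm'
        rwa [lift_of_le le_rfl] at this
      · push Not at hk
        have h1 : cx 1 (cx (k - n) m') = m := by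
          rw [cx_cx, show k - n + 1 = k + 1 - n by omega, hm']
        have := hg (cx (k - n) m') h1
        rw [lift_of_lt hk] at this
        exact this m' rfl

/-- damping below the scale `n` -/
def DampR (D : ℕ → Pt → Set (Pt → ℝ)) (n : ℕ) (B : Finset Pt) : Prop :=
  ∀ (k : ℕ) (m : Pt) (t : ℝ), k ≤ n → 0 ≤ t → t ≤ 1 → ∀ f ∈ D k m, ∀ f' : Pt → ℝ,
    (∀ x ∈ B, f' x = (1 - t) * f x) → (∀ x, x ∉ B → f' x = f x) → f' ∈ D k m

theorem damp_lift {D : ℕ → Pt → Set (Pt → ℝ)} {n : ℕ} {B : Finset Pt} (h : DampR D n B) :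
    Damp (lift D n) B := by
  intro k m t h0 h1 f hf f' e1 e2
  by_cases hk : k ≤ n
  · rw [lift_of_le hk] at hf ⊢
    exact h k m t hk h0 h1 f hf f' e1 e2
  · push Not at hk
    rw [lift_of_lt hk] at hf ⊢
    intro m' hm'
    exact h n m' t le_rfl h0 h1 f (hf m' hm') f' e1 e2

/-- two cubes are nested or disjoint -/
theorem cb_sub_or_disj {k n : ℕ} (h : k ≤ n) (m R : Pt) :
    cb k m ⊆ cb n R ∨ Disjoint (cb k m) (cb n R) := by
  by_cases hc : cx (n - k) m = R
  · left
    intro p hp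
    rw [mem_cb] at hp ⊢
    rw [← cx_sub h, hp, hc]
  · right
    rw [Finset.disjoint_left]
    intro p hp hq
    rw [mem_cb] at hp hq
    exact hc (by rw [← hp, cx_sub h, hq])

/-- the cylinder over `E` in the root: first two coordinates -/
def cy12 (n : ℕ) (R : Pt) (E : ℤ → ℤ → Prop) [DecidableRel E] : Finset Pt :=
  (cb n R).filter fun p => E p.1 p.2.1
@[inherit_doc cy12] def cy13 (n : ℕ) (R : Pt) (E : ℤ → ℤ → Prop) [DecidableRel E] : Finset Pt :=
  (cb n R).filter fun p => E p.1 p.2.2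
@[inherit_doc cy12] def cy23 (n : ℕ) (R : Pt) (E : ℤ → ℤ → Prop) [DecidableRel E] : Finset Pt :=
  (cb n R).filter fun p => E p.2.1 p.2.2

theorem dampR_of (N : EG) {μ : ℕ → ℝ} (hμ : ∀ k, 0 ≤ μ k) (n : ℕ) (R : Pt) (B : Finset Pt)
    (hB : B ⊆ cb n R)
    (hp : ∀ t : ℝ, 0 ≤ t → t ≤ 1 → ∃ t12 t13 t23 : ℤ → ℤ → ℝ, (∀ x y, |t12 x y| ≤ 1) ∧
      (∀ x y, |t13 x y| ≤ 1) ∧ (∀ x y, |t23 x y| ≤ 1) ∧ ∀ p ∈ cb n R,
        t12 p.1 p.2.1 * t13 p.1 p.2.2 * t23 p.2.1 p.2.2 = if p ∈ B then 1 - t else 1) :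
    DampR (DC N μ) n B := by
  intro k m t hk h0 h1 f hf f' e1 e2
  rcases cb_sub_or_disj hk m R with h | h
  · obtain ⟨t12, t13, t23, a12, a13, a23, e⟩ := hp t h0 h1
    refine (cc_DC N hμ k m).loc (mulE t12 t13 t23 f) f' (fun p hp => ?_)
      (DC_mulE N (hμ k) hf a12 a13 a23)
    unfold mulE
    rw [e p (h hp)]
    split_ifs with hb
    · exact (e1 p hb).symm
    · rw [one_mul]; exact (e2 p hb).symm
  · refine (cc_DC N hμ k m).loc f f' (fun p hp => ?_) hf
    refine (e2 p fun hb => ?_).symm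
    exact (Finset.disjoint_left.mp h hp) (hB hb)

theorem abs_ite_le {t : ℝ} (h0 : 0 ≤ t) (h1 : t ≤ 1) (P : Prop) [Decidable P] :
    |if P then 1 - t else 1| ≤ 1 := by
  split_ifs
  · rw [abs_of_nonneg (by linarith)]; linarith
  · simp

theorem dampR_12 (N : EG) {μ : ℕ → ℝ} (hμ : ∀ k, 0 ≤ μ k) (n : ℕ) (R : Pt) (E : ℤ → ℤ → Prop)
    [DecidableRel E] : DampR (DC N μ) n (cy12 n R E) := by
  refine dampR_of N hμ n R _ (filter_subset _ _) fun t h0 h1 =>
    ⟨fun x y => if E x y then 1 - t else 1, fun _ _ => 1, fun _ _ => 1,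
      fun x y => abs_ite_le h0 h1 _, fun _ _ => by simp, fun _ _ => by simp, fun p hp => ?_⟩
  simp only [cy12, mem_filter, hp, true_and, mul_one]

theorem dampR_13 (N : EG) {μ : ℕ → ℝ} (hμ : ∀ k, 0 ≤ μ k) (n : ℕ) (R : Pt) (E : ℤ → ℤ → Prop)
    [DecidableRel E] : DampR (DC N μ) n (cy13 n R E) := by
  refine dampR_of N hμ n R _ (filter_subset _ _) fun t h0 h1 =>
    ⟨fun _ _ => 1, fun x y => if E x y then 1 - t else 1, fun _ _ => 1,
      fun _ _ => by simp, fun x y => abs_ite_le h0 h1 _, fun _ _ => by simp, fun p hp => ?_⟩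
  simp only [cy13, mem_filter, hp, true_and, mul_one, one_mul]

theorem dampR_23 (N : EG) {μ : ℕ → ℝ} (hμ : ∀ k, 0 ≤ μ k) (n : ℕ) (R : Pt) (E : ℤ → ℤ → Prop)
    [DecidableRel E] : DampR (DC N μ) n (cy23 n R E) := by
  refine dampR_of N hμ n R _ (filter_subset _ _) fun t h0 h1 =>
    ⟨fun _ _ => 1, fun _ _ => 1, fun x y => if E x y then 1 - t else 1,
      fun _ _ => by simp, fun _ _ => by simp, fun x y => abs_ite_le h0 h1 _, fun p hp => ?_⟩
  simp only [cy23, mem_filter, hp, true_and, one_mul]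

/-- the standard nice tree: lifted test classes -/
theorem nice_LC (N : EG) {μ : ℕ → ℝ} (hμ : ∀ k, 0 ≤ μ k) (hm : Monotone μ) (n : ℕ) :
    Nice (lift (DC N μ) n) := nice_lift (nice_DC N hμ hm) n

theorem damp_12 (N : EG) {μ : ℕ → ℝ} (hμ : ∀ k, 0 ≤ μ k) (n : ℕ) (R : Pt) (E : ℤ → ℤ → Prop)
    [DecidableRel E] : Damp (lift (DC N μ) n) (cy12 n R E) := damp_lift (dampR_12 N hμ n R E)
theorem damp_13 (N : EG) {μ : ℕ → ℝ} (hμ : ∀ k, 0 ≤ μ k) (n : ℕ) (R : Pt) (E : ℤ → ℤ → Prop)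
    [DecidableRel E] : Damp (lift (DC N μ) n) (cy13 n R E) := damp_lift (dampR_13 N hμ n R E)
theorem damp_23 (N : EG) {μ : ℕ → ℝ} (hμ : ∀ k, 0 ≤ μ k) (n : ℕ) (R : Pt) (E : ℤ → ℤ → Prop)
    [DecidableRel E] : Damp (lift (DC N μ) n) (cy23 n R E) := damp_lift (dampR_23 N hμ n R E)

/-- symmetry of the lifted classes -/
theorem lift_neg (N : EG) {μ : ℕ → ℝ} (n k : ℕ) (m : Pt) :
    ∀ g ∈ lift (DC N μ) n k m, (fun p => -g p) ∈ lift (DC N μ) n k m := by
  intro g hg
  by_cases h : k ≤ n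
  · rw [lift_of_le h] at hg ⊢
    exact DC_neg N hg
  · push Not at h
    rw [lift_of_lt h] at hg ⊢
    exact fun m' hm' => DC_neg N (hg m' hm')

end

end Vale.Agent.P141.PL.H262
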