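import Vale.Agent.P141.PL.H262.GaugeLp
import Vale.Agent.P141.PL.H262.Lift
import Vale.Agent.P141.PL.H262.Hull

/-!
# P141: atomic decomposition of the structured part of a projection
-/

namespace Vale.Agent.P141.PL.H262

open Finset

noncomputable section

/-- regular gauges: continuous and definite -/
structure EG.Reg (N : EG) : Prop where
  cont : ∀ k i j, Continuous (N.N k i j)
  pos : ∀ k i j, ∃ c : ℝ, 0 < c ∧ ∀ (u : ℤ → ℤ → ℝ), ∀ x ∈ iv k i, ∀ y ∈ iv k j,
    c * |u x y| ≤ N.N k i j u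

theorem gLp_reg (p : ℝ) (hp : 2 ≤ p) : (gLp p hp).Reg where
  cont := by
    intro k i j
    have hp0 : 0 < p := by linarith
    show Continuous fun u => lpN p k i j u
    unfold lpN mom
    refine Continuous.rpow_const ?_ fun u => Or.inr (by positivity)
    refine continuous_const.mul (continuous_finsetSum _ fun x _ => continuous_finsetSum _
      fun y _ => ?_)
    refine Continuous.rpow_const ?_ fun u => Or.inr hp0.le
    fun_prop
  pos := by
    intro k i j
    have hp0 : 0 < p := by linarith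
    refine ⟨((4 ^ k : ℝ)⁻¹) ^ (1 / p), by positivity, fun u x hx y hy => ?_⟩
    show _ ≤ lpN p k i j u
    unfold lpN
    have e : |u x y| = (|u x y| ^ p) ^ (1 / p) := by
      rw [← Real.rpow_mul (abs_nonneg _), mul_one_div_cancel hp0.ne', Real.rpow_one]
    rw [e, ← Real.mul_rpow (by positivity) (Real.rpow_nonneg (abs_nonneg _) _)]
    refine Real.rpow_le_rpow (mul_nonneg (by positivity) (Real.rpow_nonneg (abs_nonneg _) _)) ?_
      (by positivity)
    unfold mom
    refine mul_le_mul_of_nonneg_left ?_ (by positivity)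
    have h1 : |u x y| ^ p ≤ ∑ y ∈ iv k j, |u x y| ^ p :=
      single_le_sum (f := fun y => |u x y| ^ p) (fun _ _ => Real.rpow_nonneg (abs_nonneg _) _) hy
    refine h1.trans ?_
    exact single_le_sum (f := fun x => ∑ y ∈ iv k j, |u x y| ^ p)
      (fun _ _ => sum_nonneg fun _ _ => Real.rpow_nonneg (abs_nonneg _) _) hx

theorem gSup_reg : gSup.Reg where
  cont := by
    intro k i j
    show Continuous fun u => supN k i j u
    unfold supN
    refine Continuous.finset_sup'_apply _ fun q _ => ?_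
    fun_prop
  pos := fun k i j => ⟨1, one_pos, fun u x hx y hy => by
    rw [one_mul]; exact le_supN u hx hy⟩

theorem EG.Reg.add {N N' : EG} (h : N.Reg) (h' : N'.Reg) : (N.add N').Reg where
  cont := fun k i j => (h.cont k i j).add (h'.cont k i j)
  pos := by
    intro k i j
    obtain ⟨c, hc, H⟩ := h.pos k i j
    exact ⟨c, hc, fun u x hx y hy => (H u x hx y hy).trans
      (le_add_of_nonneg_right (N'.nonneg k i j u))⟩

theorem EG.Reg.mulc {N : EG} (h : N.Reg) {c : ℝ} (hc : 0 < c) : (N.mulc c hc.le).Reg where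
  cont := fun k i j => continuous_const.mul (h.cont k i j)
  pos := by
    intro k i j
    obtain ⟨d, hd, H⟩ := h.pos k i j
    refine ⟨c * d, mul_pos hc hd, fun u x hx y hy => ?_⟩
    rw [mul_assoc]
    exact mul_le_mul_of_nonneg_left (H u x hx y hy) hc.le

theorem gLpM_reg (p : ℝ) (hp : 2 ≤ p) (M : ℝ) (hM : 0 < M) : (gLpM p hp M hM).Reg :=
  (gLp_reg p hp).add (gSup_reg.mulc (inv_pos.mpr hM))

variable {N : EG}

/-- normalised edge functions -/
def UB (N : EG) (k : ℕ) (i j : ℤ) : Set (ℤ → ℤ → ℝ) :=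
  {u | (∀ x y, ¬(x ∈ iv k i ∧ y ∈ iv k j) → u x y = 0) ∧ N.N k i j u ≤ 1}

theorem isCompact_UB (hN : N.Reg) (k : ℕ) (i j : ℤ) : IsCompact (UB N k i j) := by
  classical
  obtain ⟨c, hc, H⟩ := hN.pos k i j
  have e : UB N k i j = {u | N.N k i j u ≤ 1} ∩ Set.pi Set.univ fun x => Set.pi Set.univ fun y =>
      if x ∈ iv k i ∧ y ∈ iv k j then Set.Icc (-c⁻¹) c⁻¹ else {0} := by
    ext u
    constructor
    · rintro ⟨h1, h2⟩
      refine ⟨h2, fun x _ y _ => ?_⟩
      show u x y ∈ if x ∈ iv k i ∧ y ∈ iv k j then Set.Icc (-c⁻¹) c⁻¹ else {0}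
      split_ifs with h
      · have h3 := H u x h.1 y h.2
        have h4 : |u x y| ≤ c⁻¹ := by
          rw [← one_div, le_div_iff₀ hc, mul_comm]
          exact h3.trans h2
        exact abs_le.mp h4
      · exact h1 x y h
    · rintro ⟨h1, h2⟩
      refine ⟨fun x y h => ?_, h1⟩
      have h3 : u x y ∈ if x ∈ iv k i ∧ y ∈ iv k j then Set.Icc (-c⁻¹) c⁻¹ else {0} :=
        h2 x (Set.mem_univ x) y (Set.mem_univ y)
      rw [if_neg h] at h3
      exact h3
  rw [e]
  refine IsCompact.inter_left (isCompact_univ_pi fun x => isCompact_univ_pi fun y => ?_)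
    (isClosed_le (hN.cont k i j) continuous_const)
  split_ifs
  · exact isCompact_Icc
  · exact isCompact_singleton

/-- the set of the normalised atoms, as functions on the cube -/
def KA (N : EG) (k : ℕ) (m : Pt) : Set (cb k m → ℝ) :=
  (fun q : (ℤ → ℤ → ℝ) × (ℤ → ℤ → ℝ) × (ℤ → ℤ → ℝ) => fun p : cb k m =>
    Atom.fn ⟨q.1, q.2.1, q.2.2⟩ p.1) ''
    (UB N k m.1 m.2.1 ×ˢ UB N k m.1 m.2.2 ×ˢ UB N k m.2.1 m.2.2)

theorem isCompact_KA (hN : N.Reg) (k : ℕ) (m : Pt) : IsCompact (KA N k m) := by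
  refine IsCompact.image ((isCompact_UB hN _ _ _).prod ((isCompact_UB hN _ _ _).prod
    (isCompact_UB hN _ _ _))) ?_
  unfold Atom.fn
  fun_prop

/-- cut an edge function to a square and divide it by `c` -/
def cut (k : ℕ) (i j : ℤ) (c : ℝ) (u : ℤ → ℤ → ℝ) : ℤ → ℤ → ℝ :=
  open scoped Classical in fun x y => if x ∈ iv k i ∧ y ∈ iv k j then c⁻¹ * u x y else 0

theorem cut_mem {k : ℕ} {i j : ℤ} {u : ℤ → ℤ → ℝ} (h : 0 < N.N k i j u) :
    cut k i j (N.N k i j u) u ∈ UB N k i j := by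
  refine ⟨fun x y hxy => if_neg hxy, ?_⟩
  have e : N.N k i j (cut k i j (N.N k i j u) u) =
      N.N k i j (fun x y => (N.N k i j u)⁻¹ * u x y) :=
    N.congr fun x hx y hy => if_pos ⟨hx, hy⟩
  rw [e, N.smul, abs_of_pos (inv_pos.mpr h), inv_mul_cancel₀ h.ne']

theorem edge_zero (hN : N.Reg) {k : ℕ} {i j : ℤ} {u : ℤ → ℤ → ℝ} (h : N.N k i j u = 0) {x y : ℤ}
    (hx : x ∈ iv k i) (hy : y ∈ iv k j) : u x y = 0 := by
  obtain ⟨c, hc, H⟩ := hN.pos k i j
  have h1 := H u x hx y hy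
  rw [h] at h1
  have h2 : |u x y| ≤ 0 := by
    by_contra h3
    push Not at h3
    have := mul_pos hc h3
    linarith
  exact abs_nonpos_iff.mp h2

/-- a functional which is at most one on the normalised atoms is at most the weight -/
theorem pair_le_wt (hN : N.Reg) {k : ℕ} {m : Pt} {g : Pt → ℝ}
    (h : ∀ a ∈ KA N k m, |∑ p : cb k m, g p.1 * a p| ≤ 1) (a : Atom) :
    |ip (cb k m) g a.fn| ≤ wt N k m a := by
  have n12 := N.nonneg k m.1 m.2.1 a.a12
  have n13 := N.nonneg k m.1 m.2.2 a.a13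
  have n23 := N.nonneg k m.2.1 m.2.2 a.a23
  have hmem : ∀ p ∈ cb k m, p.1 ∈ iv k m.1 ∧ p.2.1 ∈ iv k m.2.1 ∧ p.2.2 ∈ iv k m.2.2 := by
    intro p hp
    unfold cb at hp
    rw [mem_product, mem_product] at hp
    exact hp
  have hz : (∀ p ∈ cb k m, a.fn p = 0) → |ip (cb k m) g a.fn| ≤ wt N k m a := by
    intro h0
    have : ip (cb k m) g a.fn = 0 := sum_eq_zero fun p hp => by rw [h0 p hp, mul_zero]
    rw [this, abs_zero]
    exact wt_nonneg _ _ _ _
  rcases n12.eq_or_lt with e12 | p12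
  · refine hz fun p hp => ?_
    obtain ⟨h1, h2, h3⟩ := hmem p hp
    unfold Atom.fn
    rw [edge_zero hN e12.symm h1 h2]; ring
  rcases n13.eq_or_lt with e13 | p13
  · refine hz fun p hp => ?_
    obtain ⟨h1, h2, h3⟩ := hmem p hp
    unfold Atom.fn
    rw [edge_zero hN e13.symm h1 h3]; ring
  rcases n23.eq_or_lt with e23 | p23
  · refine hz fun p hp => ?_
    obtain ⟨h1, h2, h3⟩ := hmem p hp
    unfold Atom.fn
    rw [edge_zero hN e23.symm h2 h3]; ring
  set b : Atom := ⟨cut k m.1 m.2.1 (N.N k m.1 m.2.1 a.a12) a.a12,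
    cut k m.1 m.2.2 (N.N k m.1 m.2.2 a.a13) a.a13,
    cut k m.2.1 m.2.2 (N.N k m.2.1 m.2.2 a.a23) a.a23⟩ with hb
  have hK : (fun p : cb k m => b.fn p.1) ∈ KA N k m :=
    ⟨(b.a12, b.a13, b.a23), ⟨cut_mem p12, cut_mem p13, cut_mem p23⟩, rfl⟩
  have h1 := h _ hK
  have hw : 0 < wt N k m a := mul_pos (mul_pos p12 p13) p23
  have e : ip (cb k m) g a.fn = wt N k m a * ∑ p : cb k m, g p.1 * b.fn p.1 := by
    unfold ip
    rw [← sum_coe_sort (cb k m) (fun p => g p * a.fn p), mul_sum]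
    refine sum_congr rfl fun p _ => ?_
    obtain ⟨h1, h2, h3⟩ := hmem p.1 p.2
    have e12 : b.a12 p.1.1 p.1.2.1 = (N.N k m.1 m.2.1 a.a12)⁻¹ * a.a12 p.1.1 p.1.2.1 :=
      if_pos ⟨h1, h2⟩
    have e13 : b.a13 p.1.1 p.1.2.2 = (N.N k m.1 m.2.2 a.a13)⁻¹ * a.a13 p.1.1 p.1.2.2 :=
      if_pos ⟨h1, h3⟩
    have e23 : b.a23 p.1.2.1 p.1.2.2 = (N.N k m.2.1 m.2.2 a.a23)⁻¹ * a.a23 p.1.2.1 p.1.2.2 :=
      if_pos ⟨h2, h3⟩
    unfold Atom.fn wt
    rw [e12, e13, e23]
    field_simp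
  rw [e, abs_mul, abs_of_pos hw]
  exact mul_le_of_le_one_right hw.le h1

theorem zero_mem_KA (k : ℕ) (m : Pt) : (0 : cb k m → ℝ) ∈ KA N k m := by
  have hz : ∀ i j, (fun _ _ => (0 : ℝ)) ∈ UB N k i j := by
    intro i j
    refine ⟨fun _ _ _ => rfl, ?_⟩
    have := N.smul k i j 0 (fun _ _ => 0)
    simp only [mul_zero, abs_zero, zero_mul] at this
    rw [this]; norm_num
  refine ⟨(fun _ _ => 0, fun _ _ => 0, fun _ _ => 0), ⟨hz _ _, hz _ _, hz _ _⟩, ?_⟩
  funext p
  simp only [Atom.fn, mul_zero, Pi.zero_apply]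

theorem neg_mem_KA (k : ℕ) (m : Pt) (a : cb k m → ℝ) (h : a ∈ KA N k m) : -a ∈ KA N k m := by
  obtain ⟨⟨u, v, w⟩, ⟨hu, hv, hw⟩, rfl⟩ := h
  refine ⟨(fun x y => (-1) * u x y, v, w), ⟨⟨fun x y hxy => ?_, ?_⟩, hv, hw⟩, ?_⟩
  · have h0 : u x y = 0 := hu.1 x y hxy
    show (-1) * u x y = 0
    rw [h0, mul_zero]
  · show N.N k m.1 m.2.1 (fun x y => (-1) * u x y) ≤ 1
    rw [N.smul, abs_neg, abs_one, one_mul]; exact hu.2
  · funext p
    simp only [Atom.fn, Pi.neg_apply]; ring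

/-- the atomic decomposition of a function from its dual bound -/
theorem atomic (hN : N.Reg) {μ : ℕ → ℝ} {k : ℕ} {m : Pt} (hμ : 0 < μ k) (s : Pt → ℝ) {T : ℝ}
    (hT : 0 < T) (h : ∀ g ∈ DC N μ k m, ip (cb k m) s g ≤ T) :
    ∃ (κ : Type) (_ : Fintype κ) (c : κ → ℝ) (a : κ → Atom), (∀ i, 0 ≤ c i) ∧
      μ k * 8 ^ k * ∑ i, c i = T ∧ (∀ i, N.N k m.1 m.2.1 (a i).a12 ≤ 1) ∧
      (∀ i, N.N k m.1 m.2.2 (a i).a13 ≤ 1) ∧ (∀ i, N.N k m.2.1 m.2.2 (a i).a23 ≤ 1) ∧
      ∀ p ∈ cb k m, s p = ∑ i, c i * (a i).fn p := by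
  classical
  set τ : ℝ := μ k * 8 ^ k with hτ
  have hτ0 : 0 < τ := by positivity
  have hT' : 0 < T / τ := by positivity
  obtain ⟨κ, hκ, w, z, hw, hw1, hz, hs⟩ := bipolar (isCompact_KA hN k m) (zero_mem_KA k m)
    (neg_mem_KA k m) (fun p => s p.1) hT' (by
      intro g hg
      set G : Pt → ℝ := fun p => if hp : p ∈ cb k m then τ * g ⟨p, hp⟩ else 0 with hG
      have hGv : ∀ p : cb k m, G p.1 = τ * g p := fun p => by simp only [hG, p.2, dif_pos]
      have hmem : G ∈ DC N μ k m := by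
        intro a
        have h1 : |ip (cb k m) (fun p => τ⁻¹ * G p) a.fn| ≤ wt N k m a := by
          refine pair_le_wt hN (fun b hb => ?_) a
          have : ∑ p : cb k m, τ⁻¹ * G p.1 * b p = ∑ p : cb k m, g p * b p := by
            refine sum_congr rfl fun p _ => ?_
            rw [hGv]; field_simp
          rw [this]
          exact hg b hb
        rw [ip_smul_left, abs_mul, abs_of_pos (inv_pos.mpr hτ0), inv_mul_le_iff₀ hτ0] at h1
        rw [← mul_assoc]; exact h1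
      have h2 := h G hmem
      have e : ip (cb k m) s G = τ * ∑ p : cb k m, s p.1 * g p := by
        unfold ip
        rw [← sum_coe_sort (cb k m) (fun p => s p * G p), mul_sum]
        refine sum_congr rfl fun p _ => ?_
        rw [hGv]; ring
      rw [e] at h2
      rw [le_div_iff₀ hτ0, mul_comm]
      exact h2)
  choose q hq using hz
  refine ⟨κ, hκ, w, fun i => ⟨(q i).1, (q i).2.1, (q i).2.2⟩, hw, ?_, fun i => (hq i).1.1.2,
    fun i => (hq i).1.2.1.2, fun i => (hq i).1.2.2.2, fun p hp => ?_⟩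
  · rw [hw1]; field_simp
  · have h1 := hs ⟨p, hp⟩
    rw [h1]
    refine sum_congr rfl fun i _ => ?_
    rw [← (hq i).2]

/-- small multiples are in the class -/
theorem exists_small (hN : N.Reg) {μ : ℕ → ℝ} {k : ℕ} {m : Pt} (hμ : 0 < μ k) (f : Pt → ℝ) :
    ∃ ε : ℝ, 0 < ε ∧ (fun p => ε * f p) ∈ DC N μ k m := by
  obtain ⟨c1, h1, H1⟩ := hN.pos k m.1 m.2.1
  obtain ⟨c2, h2, H2⟩ := hN.pos k m.1 m.2.2
  obtain ⟨c3, h3, H3⟩ := hN.pos k m.2.1 m.2.2
  set S : ℝ := ∑ p ∈ cb k m, |f p| with hS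
  have hS0 : 0 ≤ S := sum_nonneg fun _ _ => abs_nonneg _
  set c : ℝ := c1 * c2 * c3 with hc
  have hc0 : 0 < c := by positivity
  refine ⟨μ k * 8 ^ k * c / (S + 1), by positivity, fun a => ?_⟩
  have key : |ip (cb k m) f a.fn| ≤ S * (c⁻¹ * wt N k m a) := by
    unfold ip
    refine (abs_sum_le_sum_abs _ _).trans ?_
    rw [hS, sum_mul]
    refine sum_le_sum fun p hp => ?_
    rw [abs_mul]
    refine mul_le_mul_of_nonneg_left ?_ (abs_nonneg _)
    unfold cb at hp
    rw [mem_product, mem_product] at hp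
    have g1 := H1 a.a12 p.1 hp.1 p.2.1 hp.2.1
    have g2 := H2 a.a13 p.1 hp.1 p.2.2 hp.2.2
    have g3 := H3 a.a23 p.2.1 hp.2.1 p.2.2 hp.2.2
    have h4 : c * |a.fn p| ≤ wt N k m a := by
      have e : c * |a.fn p| = (c1 * |a.a12 p.1 p.2.1|) * (c2 * |a.a13 p.1 p.2.2|) *
          (c3 * |a.a23 p.2.1 p.2.2|) := by
        unfold Atom.fn
        rw [abs_mul, abs_mul, hc]; ring
      rw [e]
      unfold wt
      exact mul_le_mul (mul_le_mul g1 g2 (by positivity) (N.nonneg _ _ _ _)) g3 (by positivity)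
        (mul_nonneg (N.nonneg _ _ _ _) (N.nonneg _ _ _ _))
    rw [le_inv_mul_iff₀ hc0]
    exact h4
  rw [ip_smul_left, abs_mul, abs_of_pos (by positivity)]
  have hw := wt_nonneg N k m a
  have h5 : μ k * 8 ^ k * c / (S + 1) * (S * (c⁻¹ * wt N k m a)) ≤
      μ k * (8 ^ k * wt N k m a) := by
    have e : μ k * 8 ^ k * c / (S + 1) * (S * (c⁻¹ * wt N k m a)) =
        (μ k * (8 ^ k * wt N k m a)) * (S / (S + 1)) := by
      field_simp
    rw [e]
    refine mul_le_of_le_one_right (by positivity) ?_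
    rw [div_le_one (by linarith)]; linarith
  exact (mul_le_mul_of_nonneg_left key (by positivity)).trans h5

/-- **Atomic decomposition of the structured part**, with complementary slackness: all atoms have
gauge one on the three edges and correlate exactly with the residual. -/
theorem exists_atoms (hN : N.Reg) {μ : ℕ → ℝ} (hμ0 : ∀ k, 0 ≤ μ k) {k : ℕ} {m : Pt}
    (hμ : 0 < μ k) {F g : Pt → ℝ} (hg : IsPr (cb k m) (DC N μ k m) F g) :
    ∃ (κ : Type) (_ : Fintype κ) (c : κ → ℝ) (a : κ → Atom), (∀ i, 0 < c i) ∧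
      μ k * 8 ^ k * ∑ i, c i = ip (cb k m) (fun p => F p - g p) g ∧
      (∀ i, N.N k m.1 m.2.1 (a i).a12 = 1) ∧ (∀ i, N.N k m.1 m.2.2 (a i).a13 = 1) ∧
      (∀ i, N.N k m.2.1 m.2.2 (a i).a23 = 1) ∧
      (∀ i, ip (cb k m) g (a i).fn = μ k * 8 ^ k) ∧
      ∀ p ∈ cb k m, F p - g p = ∑ i, c i * (a i).fn p := by
  classical
  have hcc := cc_DC N hμ0 k m
  set T : ℝ := ip (cb k m) (fun p => F p - g p) g with hT
  have hT0 : 0 ≤ T := hg.ip_nonneg hcc.convex hcc.zero
  have hdual : ∀ h ∈ DC N μ k m, ip (cb k m) (fun p => F p - g p) h ≤ T := fun h hh =>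
    hg.dual hcc.convex hh
  have hτ0 : 0 < μ k * 8 ^ k := by positivity
  rcases hT0.eq_or_lt with e0 | hpos
  · -- the structured part vanishes
    obtain ⟨ε, hε, hmem⟩ := exists_small hN hμ (m := m) (fun p => F p - g p)
    have h1 := hdual _ hmem
    have e1 : ip (cb k m) (fun p => F p - g p) (fun p => ε * (F p - g p)) =
        ε * nsq (cb k m) (fun p => F p - g p) := by
      unfold ip nsq; rw [mul_sum]; exact sum_congr rfl fun _ _ => by ring
    rw [e1, ← e0] at h1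
    have h2 : nsq (cb k m) (fun p => F p - g p) ≤ 0 := by
      by_contra h3
      push Not at h3
      have := mul_pos hε h3
      linarith
    have h3 : nsq (cb k m) (fun p => F p - g p) = 0 := le_antisymm h2 (nsq_nonneg _ _)
    refine ⟨Empty, inferInstance, fun i => i.elim, fun i => i.elim, fun i => i.elim, ?_,
      fun i => i.elim, fun i => i.elim, fun i => i.elim, fun i => i.elim, fun p hp => ?_⟩
    · rw [univ_eq_empty, sum_empty, mul_zero, ← e0]
    · have := (sum_eq_zero_iff_of_nonneg (fun _ _ => sq_nonneg _)).mp h3 p hp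
      rw [univ_eq_empty, sum_empty]
      exact pow_eq_zero_iff (two_ne_zero) |>.mp this
  · obtain ⟨κ, hκ, c, a, hc, hc1, n12, n13, n23, hs⟩ := atomic hN hμ _ hpos hdual
    -- slackness
    have hle : ∀ i, ip (cb k m) g (a i).fn ≤ μ k * 8 ^ k * wt N k m (a i) := fun i =>
      (le_abs_self _).trans (by rw [mul_assoc]; exact hg.mem (a i))
    have hw1 : ∀ i, wt N k m (a i) ≤ 1 := by
      intro i
      unfold wt
      have := mul_le_one₀ (mul_le_one₀ (n12 i) (N.nonneg _ _ _ _) (n13 i)) (N.nonneg _ _ _ _) (n23 i)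
      exact this
    have hsum : ∑ i, c i * ip (cb k m) g (a i).fn = T := by
      have e : T = ip (cb k m) (fun p => ∑ i, c i * (a i).fn p) g := by
        rw [hT]
        exact ip_congr hs fun _ _ => rfl
      rw [e]
      unfold ip
      simp_rw [mul_sum, sum_mul]
      rw [sum_comm]
      exact sum_congr rfl fun p _ => sum_congr rfl fun i _ => by ring
    have heq : ∀ i, c i * ip (cb k m) g (a i).fn = c i * (μ k * 8 ^ k) := by
      have h1 : ∀ i ∈ (univ : Finset κ), c i * ip (cb k m) g (a i).fn ≤ c i * (μ k * 8 ^ k) :=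
        fun i _ => mul_le_mul_of_nonneg_left ((hle i).trans
          (mul_le_of_le_one_right hτ0.le (hw1 i))) (hc i)
      have h2 : ∑ i, c i * ip (cb k m) g (a i).fn = ∑ i, c i * (μ k * 8 ^ k) := by
        rw [hsum, ← sum_mul, mul_comm, hc1]
      exact fun i => (sum_eq_sum_iff_of_le h1).mp h2 i (mem_univ i)
    have hone : ∀ i, 0 < c i → ip (cb k m) g (a i).fn = μ k * 8 ^ k ∧ wt N k m (a i) = 1 := by
      intro i hi
      have h1 : ip (cb k m) g (a i).fn = μ k * 8 ^ k := mul_left_cancel₀ hi.ne' (heq i)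
      refine ⟨h1, le_antisymm (hw1 i) ?_⟩
      have h2 := hle i
      rw [h1] at h2
      by_contra h3
      push Not at h3
      nlinarith
    have hedge : ∀ {x y z : ℝ}, 0 ≤ x → 0 ≤ y → 0 ≤ z → x ≤ 1 → y ≤ 1 → z ≤ 1 → x * y * z = 1 →
        x = 1 ∧ y = 1 ∧ z = 1 := by
      intro x y z hx hy hz hx1 hy1 hz1 h
      have h1 : x * y ≤ 1 := mul_le_one₀ hx1 hy hy1
      have h2 : z = 1 := by
        by_contra h3
        have : z < 1 := lt_of_le_of_ne hz1 h3
        have : x * y * z < 1 := by nlinarith [mul_nonneg hx hy]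
        linarith
      rw [h2, mul_one] at h
      have h3 : y = 1 := by
        by_contra h3
        have : y < 1 := lt_of_le_of_ne hy1 h3
        have : x * y < 1 := by nlinarith
        linarith
      rw [h3, mul_one] at h
      exact ⟨h, h3, h2⟩
    have hed : ∀ i, 0 < c i → N.N k m.1 m.2.1 (a i).a12 = 1 ∧ N.N k m.1 m.2.2 (a i).a13 = 1 ∧
        N.N k m.2.1 m.2.2 (a i).a23 = 1 := fun i hi =>
      hedge (N.nonneg _ _ _ _) (N.nonneg _ _ _ _) (N.nonneg _ _ _ _) (n12 i) (n13 i) (n23 i)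
        (hone i hi).2
    refine ⟨{i : κ // 0 < c i}, inferInstance, fun i => c i.1, fun i => a i.1, fun i => i.2, ?_,
      fun i => (hed i.1 i.2).1, fun i => (hed i.1 i.2).2.1, fun i => (hed i.1 i.2).2.2,
      fun i => (hone i.1 i.2).1, fun p hp => ?_⟩
    · rw [← hc1]
      congr 1
      rw [← sum_subtype_of_mem_pos c hc]
    · rw [hs p hp]
      exact (sum_pos_subtype c hc fun i => (a i).fn p).symm
where
  sum_subtype_of_mem_pos {κ : Type} [Fintype κ] (c : κ → ℝ) (hc : ∀ i, 0 ≤ c i) :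
      ∑ i, c i = ∑ i : {i : κ // 0 < c i}, c i.1 := by
    classical
    have h1 : ∑ i : {i : κ // 0 < c i}, c i.1 = ∑ i ∈ univ.filter (fun i => 0 < c i), c i := by
      rw [← sum_subtype (univ.filter fun i => 0 < c i) (by simp) c]
    rw [h1, sum_filter]
    refine sum_congr rfl fun i _ => ?_
    split_ifs with h
    · rfl
    · exact le_antisymm (not_lt.mp h) (hc i)
  sum_pos_subtype {κ : Type} [Fintype κ] (c : κ → ℝ) (hc : ∀ i, 0 ≤ c i) (f : κ → ℝ) :
      ∑ i : {i : κ // 0 < c i}, c i.1 * f i.1 = ∑ i, c i * f i := by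
    classical
    have h1 : ∑ i : {i : κ // 0 < c i}, c i.1 * f i.1 =
        ∑ i ∈ univ.filter (fun i => 0 < c i), c i * f i := by
      rw [← sum_subtype (univ.filter fun i => 0 < c i) (by simp) fun i => c i * f i]
    rw [h1, sum_filter]
    refine sum_congr rfl fun i _ => ?_
    split_ifs with h
    · rfl
    · rw [le_antisymm (not_lt.mp h) (hc i), zero_mul]

end

end Vale.Agent.P141.PL.H262
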