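import Vale.Agent.P141.PL.H262.Tree

/-!
# P141: edge gauges and the test classes

An edge gauge `N` is a functional of edge functions on squares which is monotone in the absolute
value, homogeneous and 2-convex over the four children.  `DC N μ k m` = functions whose
correlations with the atoms `a = a12 a13 a23` on the cube are at most `μ N(a12) N(a13) N(a23)`.
-/

namespace Vale.Agent.P141.PL.H262

open Finset

noncomputable section

/-! ### Loomis-Whitney -/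

theorem lw (s t u : Finset ℤ) (A B C : ℤ → ℤ → ℝ) :
    (∑ i ∈ s, ∑ j ∈ t, ∑ l ∈ u, A i j * B i l * C j l) ^ 2 ≤
      (∑ i ∈ s, ∑ j ∈ t, A i j ^ 2) * (∑ i ∈ s, ∑ l ∈ u, B i l ^ 2) *
        (∑ j ∈ t, ∑ l ∈ u, C j l ^ 2) := by
  have e1 : ∑ i ∈ s, ∑ j ∈ t, ∑ l ∈ u, A i j * B i l * C j l =
      ∑ q ∈ s ×ˢ t, A q.1 q.2 * ∑ l ∈ u, B q.1 l * C q.2 l := by
    rw [sum_product]
    refine sum_congr rfl fun i _ => sum_congr rfl fun j _ => ?_
    rw [mul_sum]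
    exact sum_congr rfl fun l _ => by ring
  have e2 : ∑ i ∈ s, ∑ j ∈ t, A i j ^ 2 = ∑ q ∈ s ×ˢ t, A q.1 q.2 ^ 2 := by
    rw [sum_product]
  rw [e1, e2, mul_assoc]
  refine (sum_mul_sq_le_sq_mul_sq _ _ _).trans ?_
  refine mul_le_mul_of_nonneg_left ?_ (sum_nonneg fun _ _ => sq_nonneg _)
  rw [sum_product, sum_mul_sum]
  refine sum_le_sum fun i _ => sum_le_sum fun j _ => ?_
  exact sum_mul_sq_le_sq_mul_sq _ _ _

/-- an edge gauge -/
structure EG where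
  /-- the functional: scale, the two indices of the square, the function -/
  N : ℕ → ℤ → ℤ → (ℤ → ℤ → ℝ) → ℝ
  nonneg : ∀ k i j u, 0 ≤ N k i j u
  mono : ∀ (k : ℕ) (i j : ℤ) (u v : ℤ → ℤ → ℝ),
    (∀ x ∈ iv k i, ∀ y ∈ iv k j, |v x y| ≤ |u x y|) → N k i j v ≤ N k i j u
  smul : ∀ (k : ℕ) (i j : ℤ) (c : ℝ) (u : ℤ → ℤ → ℝ),
    N k i j (fun x y => c * u x y) = |c| * N k i j u
  child : ∀ (k : ℕ) (i j : ℤ) (u : ℤ → ℤ → ℝ),
    ∑ i' ∈ iv 1 i, ∑ j' ∈ iv 1 j, N k i' j' u ^ 2 ≤ 4 * N (k + 1) i j u ^ 2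

theorem EG.congr (N : EG) {k : ℕ} {i j : ℤ} {u v : ℤ → ℤ → ℝ}
    (h : ∀ x ∈ iv k i, ∀ y ∈ iv k j, u x y = v x y) : N.N k i j u = N.N k i j v :=
  le_antisymm (N.mono k i j v u fun x hx y hy => by rw [h x hx y hy])
    (N.mono k i j u v fun x hx y hy => by rw [h x hx y hy])

/-- the weight of an atom on a cube -/
def wt (N : EG) (k : ℕ) (m : Pt) (a : Atom) : ℝ :=
  N.N k m.1 m.2.1 a.a12 * N.N k m.1 m.2.2 a.a13 * N.N k m.2.1 m.2.2 a.a23

theorem wt_nonneg (N : EG) (k : ℕ) (m : Pt) (a : Atom) : 0 ≤ wt N k m a :=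
  mul_nonneg (mul_nonneg (N.nonneg _ _ _ _) (N.nonneg _ _ _ _)) (N.nonneg _ _ _ _)

theorem wt_child (N : EG) (k : ℕ) (m : Pt) (a : Atom) :
    ∑ m' ∈ cb 1 m, wt N k m' a ≤ 8 * wt N (k + 1) m a := by
  have h1 : (∑ m' ∈ cb 1 m, wt N k m' a) ^ 2 ≤ (8 * wt N (k + 1) m a) ^ 2 := by
    have e : ∑ m' ∈ cb 1 m, wt N k m' a =
        ∑ i ∈ iv 1 m.1, ∑ j ∈ iv 1 m.2.1, ∑ l ∈ iv 1 m.2.2,
          N.N k i j a.a12 * N.N k i l a.a13 * N.N k j l a.a23 := by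
      unfold cb wt
      rw [sum_product]
      refine sum_congr rfl fun i _ => ?_
      rw [sum_product]
    rw [e]
    refine (lw _ _ _ _ _ _).trans ?_
    have h12 := N.child k m.1 m.2.1 a.a12
    have h13 := N.child k m.1 m.2.2 a.a13
    have h23 := N.child k m.2.1 m.2.2 a.a23
    have e2 : (8 * wt N (k + 1) m a) ^ 2 =
        (4 * N.N (k + 1) m.1 m.2.1 a.a12 ^ 2) * (4 * N.N (k + 1) m.1 m.2.2 a.a13 ^ 2) *
          (4 * N.N (k + 1) m.2.1 m.2.2 a.a23 ^ 2) := by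
      unfold wt; ring
    rw [e2]
    have p12 : 0 ≤ ∑ i ∈ iv 1 m.1, ∑ j ∈ iv 1 m.2.1, N.N k i j a.a12 ^ 2 :=
      sum_nonneg fun _ _ => sum_nonneg fun _ _ => sq_nonneg _
    have p13 : 0 ≤ ∑ i ∈ iv 1 m.1, ∑ j ∈ iv 1 m.2.2, N.N k i j a.a13 ^ 2 :=
      sum_nonneg fun _ _ => sum_nonneg fun _ _ => sq_nonneg _
    have p23 : 0 ≤ ∑ i ∈ iv 1 m.2.1, ∑ j ∈ iv 1 m.2.2, N.N k i j a.a23 ^ 2 :=
      sum_nonneg fun _ _ => sum_nonneg fun _ _ => sq_nonneg _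
    exact mul_le_mul (mul_le_mul h12 h13 p13 (by positivity)) h23 p23 (by positivity)
  have h2 : 0 ≤ 8 * wt N (k + 1) m a := mul_nonneg (by norm_num) (wt_nonneg _ _ _ _)
  exact le_of_sq_le_sq h1 h2
where
  le_of_sq_le_sq {x y : ℝ} (h : x ^ 2 ≤ y ^ 2) (hy : 0 ≤ y) : x ≤ y := by
    nlinarith [sq_nonneg (x - y), sq_abs x, abs_nonneg x, le_abs_self x,
      abs_le_of_sq_le_sq' h hy]

/-- the class of the functions with small correlations -/
def DC (N : EG) (μ : ℕ → ℝ) (k : ℕ) (m : Pt) : Set (Pt → ℝ) :=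
  {g | ∀ a : Atom, |ip (cb k m) g a.fn| ≤ μ k * (8 ^ k * wt N k m a)}

theorem ip_add_left (A : Finset Pt) (f g h : Pt → ℝ) :
    ip A (fun p => f p + g p) h = ip A f h + ip A g h := by
  unfold ip
  rw [← sum_add_distrib]
  exact sum_congr rfl fun _ _ => by ring

theorem ip_smul_left (A : Finset Pt) (c : ℝ) (f h : Pt → ℝ) :
    ip A (fun p => c * f p) h = c * ip A f h := by
  unfold ip
  rw [mul_sum]
  exact sum_congr rfl fun _ _ => by ring

theorem continuous_ip (A : Finset Pt) (h : Pt → ℝ) : Continuous fun g : Pt → ℝ => ip A g h := by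
  unfold ip
  fun_prop

theorem cc_DC (N : EG) {μ : ℕ → ℝ} (hμ : ∀ k, 0 ≤ μ k) (k : ℕ) (m : Pt) :
    CC (cb k m) (DC N μ k m) := by
  refine ⟨?_, ?_, ?_, ?_⟩
  · have : DC N μ k m = ⋂ a : Atom, {g | |ip (cb k m) g a.fn| ≤ μ k * (8 ^ k * wt N k m a)} := by
      ext g
      simp only [DC, Set.mem_ofPred_eq, Set.mem_iInter]
    rw [this]
    exact isClosed_iInter fun a =>
      isClosed_le ((continuous_ip _ _).abs) continuous_const
  · intro f hf g hg s t hs ht hst a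
    have e : ip (cb k m) (s • f + t • g) a.fn = s * ip (cb k m) f a.fn + t * ip (cb k m) g a.fn := by
      rw [← ip_smul_left, ← ip_smul_left, ← ip_add_left]
      rfl
    rw [e]
    refine (abs_add_le _ _).trans ?_
    rw [abs_mul, abs_mul, abs_of_nonneg hs, abs_of_nonneg ht]
    have h1 := mul_le_mul_of_nonneg_left (hf a) hs
    have h2 := mul_le_mul_of_nonneg_left (hg a) ht
    calc s * |ip (cb k m) f a.fn| + t * |ip (cb k m) g a.fn|
        ≤ s * (μ k * (8 ^ k * wt N k m a)) + t * (μ k * (8 ^ k * wt N k m a)) := add_le_add h1 h2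
      _ = μ k * (8 ^ k * wt N k m a) := by rw [← add_mul, hst, one_mul]
  · intro a
    have e : ip (cb k m) (fun _ => (0 : ℝ)) a.fn = 0 := by
      unfold ip; exact sum_eq_zero fun _ _ => by ring
    rw [e, abs_zero]
    exact mul_nonneg (hμ k) (mul_nonneg (by positivity) (wt_nonneg _ _ _ _))
  · intro f g h hf a
    rw [← ip_congr (A := cb k m) h fun _ _ => rfl]
    exact hf a

theorem nice_DC (N : EG) {μ : ℕ → ℝ} (hμ : ∀ k, 0 ≤ μ k) (hm : Monotone μ) : Nice (DC N μ) where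
  cc := cc_DC N hμ
  glue := by
    intro k m g h a
    rw [ip_children]
    refine (abs_sum_le_sum_abs _ _).trans ?_
    have h1 : ∑ m' ∈ cb 1 m, |ip (cb k m') g a.fn| ≤
        ∑ m' ∈ cb 1 m, μ k * (8 ^ k * wt N k m' a) :=
      sum_le_sum fun m' hm' => h m' (mem_cb.mp hm') a
    refine h1.trans ?_
    rw [← mul_sum, ← mul_sum]
    have h2 := wt_child N k m a
    have h3 : (8 : ℝ) ^ k * ∑ m' ∈ cb 1 m, wt N k m' a ≤ 8 ^ (k + 1) * wt N (k + 1) m a := by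
      rw [pow_succ, mul_assoc]
      exact mul_le_mul_of_nonneg_left h2 (by positivity)
    have h4 : 0 ≤ (8 : ℝ) ^ (k + 1) * wt N (k + 1) m a :=
      mul_nonneg (by positivity) (wt_nonneg _ _ _ _)
    exact (mul_le_mul_of_nonneg_left h3 (hμ k)).trans
      (mul_le_mul_of_nonneg_right (hm (Nat.le_succ k)) h4)

/-- the classes are symmetric -/
theorem DC_neg (N : EG) {μ : ℕ → ℝ} {k : ℕ} {m : Pt} {g : Pt → ℝ} (h : g ∈ DC N μ k m) :
    (fun p => -g p) ∈ DC N μ k m := by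
  intro a
  have e : ip (cb k m) (fun p => -g p) a.fn = -ip (cb k m) g a.fn := by
    unfold ip; rw [← sum_neg_distrib]; exact sum_congr rfl fun _ _ => by ring
  rw [e, abs_neg]
  exact h a

theorem DC_add (N : EG) {μ μ' : ℕ → ℝ} {k : ℕ} {m : Pt} {f g : Pt → ℝ} (hf : f ∈ DC N μ k m)
    (hg : g ∈ DC N μ' k m) : (fun p => f p + g p) ∈ DC N (fun k => μ k + μ' k) k m := by
  intro a
  rw [ip_add_left]
  refine (abs_add_le _ _).trans ?_
  rw [add_mul]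
  exact add_le_add (hf a) (hg a)

theorem DC_sub (N : EG) {μ μ' : ℕ → ℝ} {k : ℕ} {m : Pt} {f g : Pt → ℝ} (hf : f ∈ DC N μ k m)
    (hg : g ∈ DC N μ' k m) : (fun p => f p - g p) ∈ DC N (fun k => μ k + μ' k) k m := by
  have := DC_add N hf (DC_neg N hg)
  simpa [sub_eq_add_neg] using this

theorem DC_smul (N : EG) {μ : ℕ → ℝ} {k : ℕ} {m : Pt} {g : Pt → ℝ} (c : ℝ) (h : g ∈ DC N μ k m) :
    (fun p => c * g p) ∈ DC N (fun k => |c| * μ k) k m := by
  intro a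
  rw [ip_smul_left, abs_mul, mul_assoc]
  exact mul_le_mul_of_nonneg_left (h a) (abs_nonneg c)

theorem DC_mono (N : EG) {μ μ' : ℕ → ℝ} {k : ℕ} {m : Pt} {g : Pt → ℝ} (h : g ∈ DC N μ k m)
    (hμ : μ k ≤ μ' k) : g ∈ DC N μ' k m := fun a =>
  (h a).trans (mul_le_mul_of_nonneg_right hμ (mul_nonneg (by positivity) (wt_nonneg _ _ _ _)))

/-! ### Multiplication by edge functions bounded by one -/

/-- multiply a function by three edge functions -/
def mulE (t12 t13 t23 : ℤ → ℤ → ℝ) (g : Pt → ℝ) : Pt → ℝ :=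
  fun p => t12 p.1 p.2.1 * t13 p.1 p.2.2 * t23 p.2.1 p.2.2 * g p

theorem DC_mulE (N : EG) {μ : ℕ → ℝ} {k : ℕ} {m : Pt} {g : Pt → ℝ} (hμ : 0 ≤ μ k)
    (h : g ∈ DC N μ k m) {t12 t13 t23 : ℤ → ℤ → ℝ}
    (h12 : ∀ x y, |t12 x y| ≤ 1) (h13 : ∀ x y, |t13 x y| ≤ 1) (h23 : ∀ x y, |t23 x y| ≤ 1) :
    mulE t12 t13 t23 g ∈ DC N μ k m := by
  intro a
  have e : ip (cb k m) (mulE t12 t13 t23 g) a.fn = ip (cb k m) g
      (Atom.fn ⟨fun x y => t12 x y * a.a12 x y, fun x y => t13 x y * a.a13 x y,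
        fun x y => t23 x y * a.a23 x y⟩) := by
    unfold ip mulE Atom.fn
    exact sum_congr rfl fun _ _ => by ring
  rw [e]
  refine (h _).trans (mul_le_mul_of_nonneg_left (mul_le_mul_of_nonneg_left ?_ (by positivity)) hμ)
  have hle : ∀ (t u : ℤ → ℤ → ℝ), (∀ x y, |t x y| ≤ 1) → ∀ (i j : ℤ),
      N.N k i j (fun x y => t x y * u x y) ≤ N.N k i j u := by
    intro t u ht i j
    refine N.mono _ _ _ _ _ fun x _ y _ => ?_
    rw [abs_mul]
    exact mul_le_of_le_one_left (abs_nonneg _) (ht x y)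
  unfold wt
  exact mul_le_mul (mul_le_mul (hle _ _ h12 _ _) (hle _ _ h13 _ _) (N.nonneg _ _ _ _)
    (N.nonneg _ _ _ _)) (hle _ _ h23 _ _) (N.nonneg _ _ _ _)
    (mul_nonneg (N.nonneg _ _ _ _) (N.nonneg _ _ _ _))

end

end Vale.Agent.P141.PL.H262
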