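import Vale.Agent.P141.PL.H262.Gauge

/-!
# P141: instances of edge gauges: `|u|_p` (`p ≥ 2`), `|u|_∞`, sums and multiples
-/

namespace Vale.Agent.P141.PL.H262

open Finset

noncomputable section

theorem sum_iv_child (k : ℕ) (i : ℤ) (f : ℤ → ℝ) :
    ∑ x ∈ iv (k + 1) i, f x = ∑ i' ∈ iv 1 i, ∑ x ∈ iv k i', f x := by
  rw [← sum_fiberwise_of_maps_to (s := iv (k + 1) i) (t := iv 1 i) (g := ix k)]
  · refine sum_congr rfl fun i' hi' => sum_congr ?_ fun _ _ => rfl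
    ext x
    rw [mem_filter, mem_iv, mem_iv]
    rw [mem_iv] at hi'
    constructor
    · exact fun h => h.2
    · intro h
      exact ⟨by rw [← ix_ix, h, hi'], h⟩
  · intro x hx
    rw [mem_iv] at hx ⊢
    rw [ix_ix]; exact hx

theorem sum_sq_child (k : ℕ) (i j : ℤ) (f : ℤ → ℤ → ℝ) :
    ∑ x ∈ iv (k + 1) i, ∑ y ∈ iv (k + 1) j, f x y =
      ∑ i' ∈ iv 1 i, ∑ j' ∈ iv 1 j, ∑ x ∈ iv k i', ∑ y ∈ iv k j', f x y := by
  rw [sum_iv_child]
  refine sum_congr rfl fun i' _ => ?_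
  rw [sum_comm, sum_iv_child]
  refine sum_congr rfl fun j' _ => ?_
  rw [sum_comm]

/-- normalised `p`-th moment on a square -/
def mom (p : ℝ) (k : ℕ) (i j : ℤ) (u : ℤ → ℤ → ℝ) : ℝ :=
  (4 ^ k : ℝ)⁻¹ * ∑ x ∈ iv k i, ∑ y ∈ iv k j, |u x y| ^ p

theorem mom_nonneg (p : ℝ) (k : ℕ) (i j : ℤ) (u : ℤ → ℤ → ℝ) : 0 ≤ mom p k i j u :=
  mul_nonneg (by positivity) (sum_nonneg fun _ _ => sum_nonneg fun _ _ =>
    Real.rpow_nonneg (abs_nonneg _) _)

theorem mom_child (p : ℝ) (k : ℕ) (i j : ℤ) (u : ℤ → ℤ → ℝ) :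
    ∑ i' ∈ iv 1 i, ∑ j' ∈ iv 1 j, mom p k i' j' u = 4 * mom p (k + 1) i j u := by
  unfold mom
  rw [sum_sq_child k i j]
  simp_rw [← mul_sum]
  rw [← mul_assoc]
  congr 1
  rw [pow_succ]
  field_simp

/-- the `L^p` norm on a square -/
def lpN (p : ℝ) (k : ℕ) (i j : ℤ) (u : ℤ → ℤ → ℝ) : ℝ := mom p k i j u ^ (1 / p)

theorem lpN_nonneg (p : ℝ) (k : ℕ) (i j : ℤ) (u : ℤ → ℤ → ℝ) : 0 ≤ lpN p k i j u :=
  Real.rpow_nonneg (mom_nonneg _ _ _ _ _) _

theorem lpN_rpow {p : ℝ} (hp : 0 < p) (k : ℕ) (i j : ℤ) (u : ℤ → ℤ → ℝ) :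
    lpN p k i j u ^ p = mom p k i j u := by
  unfold lpN
  rw [← Real.rpow_mul (mom_nonneg _ _ _ _ _), one_div_mul_cancel hp.ne', Real.rpow_one]

theorem card_iv_real (k : ℕ) (i : ℤ) : ((iv k i).card : ℝ) = 2 ^ k := by
  rw [card_iv]; push_cast; rfl

/-- the `L^p` gauge -/
def gLp (p : ℝ) (hp : 2 ≤ p) : EG where
  N := lpN p
  nonneg := lpN_nonneg p
  mono := by
    intro k i j u v h
    have hp0 : 0 < p := by linarith
    refine Real.rpow_le_rpow (mom_nonneg _ _ _ _ _) ?_ (by positivity)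
    refine mul_le_mul_of_nonneg_left ?_ (by positivity)
    exact sum_le_sum fun x hx => sum_le_sum fun y hy =>
      Real.rpow_le_rpow (abs_nonneg _) (h x hx y hy) hp0.le
  smul := by
    intro k i j c u
    have hp0 : 0 < p := by linarith
    have e : mom p k i j (fun x y => c * u x y) = |c| ^ p * mom p k i j u := by
      unfold mom
      simp_rw [abs_mul, Real.mul_rpow (abs_nonneg _) (abs_nonneg _)]
      simp_rw [← mul_sum]
      ring
    unfold lpN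
    rw [e, Real.mul_rpow (Real.rpow_nonneg (abs_nonneg _) _) (mom_nonneg _ _ _ _ _),
      ← Real.rpow_mul (abs_nonneg _), mul_one_div_cancel hp0.ne', Real.rpow_one]
  child := by
    intro k i j u
    have hp0 : 0 < p := by linarith
    have hq : 1 ≤ p / 2 := by linarith
    -- power mean over the four children
    have hcard : ((iv 1 i ×ˢ iv 1 j).card : ℝ) = 4 := by
      rw [card_product, card_iv, card_iv]; norm_num
    have h1 := Real.rpow_arith_mean_le_arith_mean_rpow (iv 1 i ×ˢ iv 1 j) (fun _ => (1 / 4 : ℝ))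
      (fun q => lpN p k q.1 q.2 u ^ 2) (fun _ _ => by norm_num)
      (by rw [sum_const, nsmul_eq_mul, hcard]; norm_num) (fun _ _ => sq_nonneg _) hq
    have h2 : ∀ q : ℤ × ℤ, (lpN p k q.1 q.2 u ^ 2) ^ (p / 2) = mom p k q.1 q.2 u := by
      intro q
      rw [← Real.rpow_natCast, ← Real.rpow_mul (lpN_nonneg _ _ _ _ _)]
      have : ((2 : ℕ) : ℝ) * (p / 2) = p := by push_cast; ring
      rw [this, lpN_rpow hp0]
    simp_rw [h2] at h1
    rw [← mul_sum, ← mul_sum, sum_product, sum_product, mom_child] at h1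
    have h3 : (1 / 4 : ℝ) * (4 * mom p (k + 1) i j u) = mom p (k + 1) i j u := by ring
    rw [h3] at h1
    set S : ℝ := ∑ i' ∈ iv 1 i, ∑ j' ∈ iv 1 j, lpN p k i' j' u ^ 2 with hS
    have hS0 : 0 ≤ S := sum_nonneg fun _ _ => sum_nonneg fun _ _ => sq_nonneg _
    have h4 : 1 / 4 * S ≤ lpN p (k + 1) i j u ^ 2 := by
      have h5 : (1 / 4 * S) = ((1 / 4 * S) ^ (p / 2)) ^ (2 / p) := by
        rw [← Real.rpow_mul (by positivity)]
        have : p / 2 * (2 / p) = 1 := by field_simp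
        rw [this, Real.rpow_one]
      rw [h5]
      refine (Real.rpow_le_rpow (Real.rpow_nonneg (by positivity) _) h1 (by positivity)).trans ?_
      rw [← lpN_rpow hp0, ← Real.rpow_mul (lpN_nonneg _ _ _ _ _)]
      have : p * (2 / p) = ((2 : ℕ) : ℝ) := by push_cast; field_simp
      rw [this, Real.rpow_natCast]
    linarith

/-- the maximum of the absolute value on a square -/
def supN (k : ℕ) (i j : ℤ) (u : ℤ → ℤ → ℝ) : ℝ :=
  (iv k i ×ˢ iv k j).sup' (by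
    rw [← card_pos, card_product, card_iv, card_iv]; positivity) fun q => |u q.1 q.2|

theorem le_supN {k : ℕ} {i j : ℤ} (u : ℤ → ℤ → ℝ) {x y : ℤ} (hx : x ∈ iv k i)
    (hy : y ∈ iv k j) : |u x y| ≤ supN k i j u :=
  le_sup' (fun q : ℤ × ℤ => |u q.1 q.2|) (mem_product.mpr ⟨hx, hy⟩ : (x, y) ∈ iv k i ×ˢ iv k j)

theorem supN_le {k : ℕ} {i j : ℤ} {u : ℤ → ℤ → ℝ} {c : ℝ}
    (h : ∀ x ∈ iv k i, ∀ y ∈ iv k j, |u x y| ≤ c) : supN k i j u ≤ c :=
  sup'_le _ _ fun q hq => h q.1 (mem_product.mp hq).1 q.2 (mem_product.mp hq).2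

theorem exists_supN (k : ℕ) (i j : ℤ) (u : ℤ → ℤ → ℝ) :
    ∃ x ∈ iv k i, ∃ y ∈ iv k j, supN k i j u = |u x y| := by
  obtain ⟨q, hq, e⟩ := exists_mem_eq_sup' (s := iv k i ×ˢ iv k j) (by
    rw [← card_pos, card_product, card_iv, card_iv]; positivity) fun q : ℤ × ℤ => |u q.1 q.2|
  exact ⟨q.1, (mem_product.mp hq).1, q.2, (mem_product.mp hq).2, e⟩

theorem supN_nonneg (k : ℕ) (i j : ℤ) (u : ℤ → ℤ → ℝ) : 0 ≤ supN k i j u := by
  obtain ⟨x, _, y, _, e⟩ := exists_supN k i j u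
  rw [e]; exact abs_nonneg _

/-- the supremum gauge -/
def gSup : EG where
  N := supN
  nonneg := supN_nonneg
  mono := by
    intro k i j u v h
    exact supN_le fun x hx y hy => (h x hx y hy).trans (le_supN u hx hy)
  smul := by
    intro k i j c u
    refine le_antisymm (supN_le fun x hx y hy => ?_) ?_
    · rw [abs_mul]
      exact mul_le_mul_of_nonneg_left (le_supN u hx hy) (abs_nonneg _)
    · obtain ⟨x, hx, y, hy, e⟩ := exists_supN k i j u
      rw [e, ← abs_mul]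
      exact le_supN (fun x y => c * u x y) hx hy
  child := by
    intro k i j u
    have h : ∀ i' ∈ iv 1 i, ∀ j' ∈ iv 1 j, supN k i' j' u ^ 2 ≤ supN (k + 1) i j u ^ 2 := by
      intro i' hi' j' hj'
      refine pow_le_pow_left₀ (supN_nonneg _ _ _ _) (supN_le fun x hx y hy => le_supN u ?_ ?_) 2
      · rw [mem_iv] at hx hi' ⊢
        rw [← ix_ix, hx, hi']
      · rw [mem_iv] at hy hj' ⊢
        rw [← ix_ix, hy, hj']
    refine (sum_le_sum fun i' hi' => sum_le_sum fun j' hj' => h i' hi' j' hj').trans ?_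
    rw [sum_const, sum_const, card_iv, card_iv, nsmul_eq_mul, nsmul_eq_mul]
    apply le_of_eq
    norm_num
    ring

/-- multiples of gauges -/
def EG.mulc (N : EG) (c : ℝ) (hc : 0 ≤ c) : EG where
  N := fun k i j u => c * N.N k i j u
  nonneg := fun k i j u => mul_nonneg hc (N.nonneg k i j u)
  mono := fun k i j u v h => mul_le_mul_of_nonneg_left (N.mono k i j u v h) hc
  smul := fun k i j c' u => by rw [N.smul]; ring
  child := fun k i j u => by
    have h := mul_le_mul_of_nonneg_left (N.child k i j u) (sq_nonneg c)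
    have e : ∑ i' ∈ iv 1 i, ∑ j' ∈ iv 1 j, (c * N.N k i' j' u) ^ 2 =
        c ^ 2 * ∑ i' ∈ iv 1 i, ∑ j' ∈ iv 1 j, N.N k i' j' u ^ 2 := by
      simp_rw [mul_sum, mul_pow]
    rw [e]
    refine h.trans (le_of_eq (by ring))

/-- sums of gauges -/
def EG.add (N N' : EG) : EG where
  N := fun k i j u => N.N k i j u + N'.N k i j u
  nonneg := fun k i j u => add_nonneg (N.nonneg k i j u) (N'.nonneg k i j u)
  mono := fun k i j u v h => add_le_add (N.mono k i j u v h) (N'.mono k i j u v h)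
  smul := fun k i j c u => by rw [N.smul, N'.smul]; ring
  child := fun k i j u => by
    set P := iv 1 i ×ˢ iv 1 j with hP
    set a : ℝ := N.N (k + 1) i j u with ha
    set b : ℝ := N'.N (k + 1) i j u with hb
    have ha0 : 0 ≤ a := N.nonneg _ _ _ _
    have hb0 : 0 ≤ b := N'.nonneg _ _ _ _
    have h1 := N.child k i j u
    have h2 := N'.child k i j u
    rw [← sum_product'] at h1 h2
    rw [← sum_product' (f := fun i' j' => (N.N k i' j' u + N'.N k i' j' u) ^ 2)]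
    have h3 : (∑ q ∈ P, N.N k q.1 q.2 u * N'.N k q.1 q.2 u) ^ 2 ≤ (4 * a * b) ^ 2 := by
      refine (sum_mul_sq_le_sq_mul_sq _ _ _).trans ?_
      refine (mul_le_mul h1 h2 (sum_nonneg fun _ _ => sq_nonneg _) (by positivity)).trans ?_
      exact le_of_eq (by ring)
    have h4 : ∑ q ∈ P, N.N k q.1 q.2 u * N'.N k q.1 q.2 u ≤ 4 * a * b := by
      have h5 : 0 ≤ 4 * a * b := by positivity
      exact abs_le_of_sq_le_sq' h3 h5 |>.2
    have e : ∑ q ∈ P, (N.N k q.1 q.2 u + N'.N k q.1 q.2 u) ^ 2 =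
        ∑ q ∈ P, N.N k q.1 q.2 u ^ 2 + 2 * ∑ q ∈ P, N.N k q.1 q.2 u * N'.N k q.1 q.2 u +
          ∑ q ∈ P, N'.N k q.1 q.2 u ^ 2 := by
      rw [mul_sum, ← sum_add_distrib, ← sum_add_distrib]
      exact sum_congr rfl fun _ _ => by ring
    rw [e]
    nlinarith

/-- the maximum of two gauges is not needed; `|u|_p + |u|_∞ / M` -/
def gLpM (p : ℝ) (hp : 2 ≤ p) (M : ℝ) (hM : 0 < M) : EG :=
  (gLp p hp).add (gSup.mulc M⁻¹ (inv_nonneg.mpr hM.le))

theorem gLpM_N (p : ℝ) (hp : 2 ≤ p) (M : ℝ) (hM : 0 < M) (k : ℕ) (i j : ℤ) (u : ℤ → ℤ → ℝ) :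
    (gLpM p hp M hM).N k i j u = lpN p k i j u + M⁻¹ * supN k i j u := rfl

/-- bounded edge functions have gauge at most `1 + 1 / M` -/
theorem lpN_le_one {p : ℝ} (hp : 0 < p) {k : ℕ} {i j : ℤ} {u : ℤ → ℤ → ℝ}
    (h : ∀ x ∈ iv k i, ∀ y ∈ iv k j, |u x y| ≤ 1) : lpN p k i j u ≤ 1 := by
  refine Real.rpow_le_one (mom_nonneg _ _ _ _ _) ?_ (by positivity)
  unfold mom
  have h1 : ∑ x ∈ iv k i, ∑ y ∈ iv k j, |u x y| ^ p ≤ ∑ x ∈ iv k i, ∑ y ∈ iv k j, (1 : ℝ) :=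
    sum_le_sum fun x hx => sum_le_sum fun y hy =>
      Real.rpow_le_one (abs_nonneg _) (h x hx y hy) hp.le
  have h2 : ∑ x ∈ iv k i, ∑ y ∈ iv k j, (1 : ℝ) = 4 ^ k := by
    simp only [sum_const, card_iv, nsmul_eq_mul, mul_one]
    push_cast
    rw [← mul_pow]; norm_num
  rw [h2] at h1
  have h3 : (0 : ℝ) < 4 ^ k := by positivity
  rw [inv_mul_le_iff₀ h3]
  linarith

/-- the `L^2` gauge as a sum of squares -/
theorem lpN_two_sq (k : ℕ) (i j : ℤ) (u : ℤ → ℤ → ℝ) :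
    lpN 2 k i j u ^ 2 = (4 ^ k : ℝ)⁻¹ * ∑ x ∈ iv k i, ∑ y ∈ iv k j, u x y ^ 2 := by
  have h := lpN_rpow (p := 2) (by norm_num) k i j u
  have e : lpN 2 k i j u ^ (2 : ℝ) = lpN 2 k i j u ^ 2 := by
    rw [← Real.rpow_natCast]; norm_num
  rw [e] at h
  rw [h]
  unfold mom
  congr 1
  refine sum_congr rfl fun x _ => sum_congr rfl fun y _ => ?_
  have : |u x y| ^ (2 : ℝ) = |u x y| ^ 2 := by
    rw [← Real.rpow_natCast]; norm_num
  rw [this, sq_abs]

end

end Vale.Agent.P141.PL.H262
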