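import Mathlib

/-!
# P141: projections on closed convex sets of functions on a finite set

`A` a finite set of points, `D` a closed convex set of functions which depends only on the values
on `A`.  Everything is written with sums over `A`.
-/

namespace Vale.Agent.P141.PL.H262

open Finset

noncomputable section

variable {X : Type*}

/-- the square of the `ℓ²` norm over `A` -/
def nsq (A : Finset X) (f : X → ℝ) : ℝ := ∑ x ∈ A, f x ^ 2

/-- the inner product over `A` -/
def ip (A : Finset X) (f g : X → ℝ) : ℝ := ∑ x ∈ A, f x * g x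

theorem nsq_nonneg (A : Finset X) (f : X → ℝ) : 0 ≤ nsq A f :=
  sum_nonneg fun _ _ => sq_nonneg _

theorem nsq_congr {A : Finset X} {f g : X → ℝ} (h : ∀ x ∈ A, f x = g x) : nsq A f = nsq A g :=
  sum_congr rfl fun x hx => by rw [h x hx]

theorem ip_congr {A : Finset X} {f g f' g' : X → ℝ} (h : ∀ x ∈ A, f x = g x)
    (h' : ∀ x ∈ A, f' x = g' x) : ip A f f' = ip A g g' :=
  sum_congr rfl fun x hx => by rw [h x hx, h' x hx]

theorem nsq_add (A : Finset X) (f g : X → ℝ) :
    nsq A (fun x => f x + g x) = nsq A f + 2 * ip A f g + nsq A g := by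
  unfold nsq ip
  rw [mul_sum, ← sum_add_distrib, ← sum_add_distrib]
  exact sum_congr rfl fun x _ => by ring

theorem nsq_sub (A : Finset X) (f g : X → ℝ) :
    nsq A (fun x => f x - g x) = nsq A f - 2 * ip A f g + nsq A g := by
  unfold nsq ip
  rw [mul_sum, ← sum_sub_distrib, ← sum_add_distrib]
  exact sum_congr rfl fun x _ => by ring

theorem nsq_smul (A : Finset X) (c : ℝ) (f : X → ℝ) :
    nsq A (fun x => c * f x) = c ^ 2 * nsq A f := by
  unfold nsq
  rw [mul_sum]
  exact sum_congr rfl fun x _ => by ring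

theorem nsq_mono {A B : Finset X} (h : A ⊆ B) (f : X → ℝ) : nsq A f ≤ nsq B f :=
  sum_le_sum_of_subset_of_nonneg h fun _ _ _ => sq_nonneg _

/-- `D` depends only on the values on `A` -/
def Local (A : Finset X) (D : Set (X → ℝ)) : Prop :=
  ∀ f g : X → ℝ, (∀ x ∈ A, f x = g x) → f ∈ D → g ∈ D

/-- a closed convex set of functions on `A` which contains `0` -/
structure CC (A : Finset X) (D : Set (X → ℝ)) : Prop where
  closed : IsClosed D
  convex : Convex ℝ D
  zero : (fun _ => 0) ∈ D
  loc : Local A D

/-- `g` is the projection of `F` on `D` (distances over `A`) -/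
structure IsPr (A : Finset X) (D : Set (X → ℝ)) (F g : X → ℝ) : Prop where
  mem : g ∈ D
  supp : ∀ x, x ∉ A → g x = 0
  min : ∀ h ∈ D, nsq A (fun x => F x - g x) ≤ nsq A (fun x => F x - h x)

theorem exists_isPr {A : Finset X} {D : Set (X → ℝ)} (hD : CC A D) (F : X → ℝ) :
    ∃ g, IsPr A D F g := by
  classical
  set M : ℝ := nsq A F with hM
  have hM0 : 0 ≤ M := nsq_nonneg _ _
  set R : X → ℝ := fun x => |F x| + M + 1 with hR
  set K : Set (X → ℝ) :=
    D ∩ Set.pi Set.univ fun x => if x ∈ A then Set.Icc (-R x) (R x) else {0} with hK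
  have hcomp : IsCompact K := by
    refine IsCompact.inter_left (isCompact_univ_pi fun x => ?_) hD.closed
    split_ifs
    · exact isCompact_Icc
    · exact isCompact_singleton
  have hRpos : ∀ x, 0 < R x := fun x => by
    have := abs_nonneg (F x)
    simp only [hR]; linarith
  have h0 : (fun _ => 0 : X → ℝ) ∈ K := by
    refine ⟨hD.zero, fun x _ => ?_⟩
    show (0 : ℝ) ∈ if x ∈ A then Set.Icc (-R x) (R x) else {0}
    split_ifs
    · exact ⟨by linarith [hRpos x], (hRpos x).le⟩
    · rfl
  have hcont : Continuous fun g : X → ℝ => nsq A (fun x => F x - g x) := by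
    unfold nsq
    fun_prop
  obtain ⟨g, hgK, hg⟩ := hcomp.exists_isMinOn ⟨_, h0⟩ hcont.continuousOn
  have hgs : ∀ x, x ∉ A → g x = 0 := by
    intro x hx
    have := hgK.2 x (Set.mem_univ x)
    simp only [if_neg hx] at this
    exact this
  refine ⟨g, hgK.1, hgs, fun h hh => ?_⟩
  -- cut `h` to `A`
  set h' : X → ℝ := fun x => if x ∈ A then h x else 0 with hh'
  have e1 : nsq A (fun x => F x - h x) = nsq A (fun x => F x - h' x) :=
    nsq_congr fun x hx => by simp only [hh', if_pos hx]
  have hh'D : h' ∈ D := hD.loc h h' (fun x hx => by simp only [hh', if_pos hx]) hh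
  rw [e1]
  by_cases hb : ∀ x ∈ A, |h' x| ≤ R x
  · refine hg ⟨hh'D, fun x _ => ?_⟩
    show h' x ∈ if x ∈ A then Set.Icc (-R x) (R x) else {0}
    split_ifs with hx
    · exact abs_le.mp (hb x hx)
    · simp only [hh', if_neg hx]; rfl
  · push Not at hb
    obtain ⟨x, hx, hxb⟩ := hb
    have h1 : nsq A (fun x => F x - g x) ≤ M := by
      have := hg h0
      simpa [hM] using this
    have h2 : M + 1 ≤ |F x - h' x| := by
      have h3 : |h' x| ≤ |F x| + |F x - h' x| := by
        have := abs_sub_abs_le_abs_sub (h' x) (F x)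
        rw [abs_sub_comm] at this
        linarith
      simp only [hR] at hxb
      linarith
    have h4 : (F x - h' x) ^ 2 ≤ nsq A (fun x => F x - h' x) :=
      single_le_sum (f := fun x => (F x - h' x) ^ 2) (fun _ _ => sq_nonneg _) hx
    have h5 : (M + 1) ^ 2 ≤ (F x - h' x) ^ 2 := by
      rw [← sq_abs (F x - h' x)]
      exact pow_le_pow_left₀ (by linarith) h2 2
    nlinarith

/-- the obtuse angle property -/
theorem IsPr.obtuse {A : Finset X} {D : Set (X → ℝ)} (hc : Convex ℝ D) {F g : X → ℝ}
    (hg : IsPr A D F g) {h : X → ℝ} (hh : h ∈ D) :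
    ip A (fun x => F x - g x) (fun x => h x - g x) ≤ 0 := by
  by_contra hcon
  push Not at hcon
  set a := ip A (fun x => F x - g x) (fun x => h x - g x) with ha
  set b := nsq A (fun x => h x - g x) with hb
  have hb0 : 0 ≤ b := nsq_nonneg _ _
  set t : ℝ := 1 ⊓ (a / (b + 1)) with ht
  have ht0 : 0 < t := lt_inf_iff.mpr ⟨one_pos, by positivity⟩
  have ht1 : t ≤ 1 := inf_le_left
  have ht2 : t * (b + 1) ≤ a := by
    have : t ≤ a / (b + 1) := inf_le_right
    rwa [le_div_iff₀ (by linarith)] at this
  have hmem : (fun x => g x + t * (h x - g x)) ∈ D := by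
    have := hc hg.mem hh (a := 1 - t) (b := t) (by linarith) ht0.le (by ring)
    convert this using 1
    funext x
    simp only [Pi.add_apply, Pi.smul_apply, smul_eq_mul]
    ring
  have h1 := hg.min _ hmem
  have e1 : nsq A (fun x => F x - (g x + t * (h x - g x))) =
      nsq A (fun x => F x - g x) - 2 * t * a + t ^ 2 * b := by
    have e2 : nsq A (fun x => F x - (g x + t * (h x - g x))) =
        nsq A (fun x => (F x - g x) - t * (h x - g x)) :=
      nsq_congr fun x _ => by ring
    rw [e2, nsq_sub A (fun x => F x - g x) (fun x => t * (h x - g x)), nsq_smul]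
    have e3 : ip A (fun x => F x - g x) (fun x => t * (h x - g x)) = t * a := by
      rw [ha]; unfold ip; rw [mul_sum]
      exact sum_congr rfl fun x _ => by ring
    rw [e3]; ring
  rw [e1] at h1
  nlinarith

/-- Pythagoras: the projection is close to every almost optimal element -/
theorem IsPr.pyth {A : Finset X} {D : Set (X → ℝ)} (hc : Convex ℝ D) {F g : X → ℝ}
    (hg : IsPr A D F g) {h : X → ℝ} (hh : h ∈ D) :
    nsq A (fun x => F x - g x) + nsq A (fun x => h x - g x) ≤ nsq A (fun x => F x - h x) := by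
  have h1 := hg.obtuse hc hh
  have e : nsq A (fun x => F x - h x) = nsq A (fun x => (F x - g x) - (h x - g x)) :=
    nsq_congr fun x _ => by ring
  rw [e, nsq_sub A (fun x => F x - g x) (fun x => h x - g x)]
  linarith

/-- the structured part against an element of `D` -/
theorem IsPr.dual {A : Finset X} {D : Set (X → ℝ)} (hc : Convex ℝ D) {F g : X → ℝ}
    (hg : IsPr A D F g) {h : X → ℝ} (hh : h ∈ D) :
    ip A (fun x => F x - g x) h ≤ ip A (fun x => F x - g x) g := by
  have h1 := hg.obtuse hc hh
  have e : ip A (fun x => F x - g x) (fun x => h x - g x) =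
      ip A (fun x => F x - g x) h - ip A (fun x => F x - g x) g := by
    unfold ip
    rw [← sum_sub_distrib]
    exact sum_congr rfl fun x _ => by ring
  linarith

theorem ip_le_quarter (A : Finset X) (F g : X → ℝ) :
    ip A (fun x => F x - g x) g ≤ nsq A F / 4 := by
  have h : 0 ≤ nsq A (fun x => F x - 2 * g x) := nsq_nonneg _ _
  have e : nsq A (fun x => F x - 2 * g x) =
      nsq A F - 4 * ip A (fun x => F x - g x) g := by
    unfold nsq ip
    rw [mul_sum, ← sum_sub_distrib]
    exact sum_congr rfl fun x _ => by ring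
  linarith

theorem IsPr.ip_nonneg {A : Finset X} {D : Set (X → ℝ)} (hc : Convex ℝ D)
    (h0 : (fun _ => 0) ∈ D) {F g : X → ℝ} (hg : IsPr A D F g) :
    0 ≤ ip A (fun x => F x - g x) g := by
  have := hg.dual hc h0
  have e : ip A (fun x => F x - g x) (fun _ => 0) = 0 := by
    unfold ip; exact sum_eq_zero fun x _ => by ring
  linarith

/-- the dual form of the atomic norm: `h / B ∈ D` -/
theorem IsPr.pair {A : Finset X} {D : Set (X → ℝ)} (hc : Convex ℝ D) {F g : X → ℝ}
    (hg : IsPr A D F g) {h : X → ℝ} {B : ℝ} (hB : 0 < B) (hh : (fun x => B⁻¹ * h x) ∈ D) :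
    ip A (fun x => F x - g x) h ≤ B * (nsq A F / 4) := by
  have h1 := hg.dual hc hh
  have e : ip A (fun x => F x - g x) (fun x => B⁻¹ * h x) =
      B⁻¹ * ip A (fun x => F x - g x) h := by
    unfold ip
    rw [mul_sum]
    exact sum_congr rfl fun x _ => by ring
  rw [e] at h1
  have h2 := h1.trans (ip_le_quarter A F g)
  rw [inv_mul_le_iff₀ hB] at h2
  exact h2

/-- the projection is unique on `A` -/
theorem IsPr.unique {A : Finset X} {D : Set (X → ℝ)} (hc : Convex ℝ D) {F g g' : X → ℝ}
    (hg : IsPr A D F g) (hg' : IsPr A D F g') : g = g' := by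
  have h1 := hg.pyth hc hg'.mem
  have h2 := hg'.min _ hg.mem
  have h3 : nsq A (fun x => g' x - g x) ≤ 0 := by linarith
  have h4 : nsq A (fun x => g' x - g x) = 0 := le_antisymm h3 (nsq_nonneg _ _)
  funext x
  by_cases hx : x ∈ A
  · have := (sum_eq_zero_iff_of_nonneg (fun _ _ => sq_nonneg _)).mp h4 x hx
    have h5 : g' x - g x = 0 := by
      simpa using this
    linarith
  · rw [hg.supp x hx, hg'.supp x hx]

/-- line energies: if `D` is stable under multiplication by the indicator of the complement of `B`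
then the energies over `B` of the residual and of the structured part add up to at most the energy
of `F` -/
theorem IsPr.line {A : Finset X} {D : Set (X → ℝ)} {F g : X → ℝ}
    (hg : IsPr A D F g) {B : Finset X} (hBA : B ⊆ A)
    (hs : ∀ t : ℝ, 0 ≤ t → t ≤ 1 → ∀ f ∈ D, ∀ f' : X → ℝ, (∀ x ∈ B, f' x = (1 - t) * f x) →
      (∀ x, x ∉ B → f' x = f x) → f' ∈ D) :
    nsq B g + nsq B (fun x => F x - g x) ≤ nsq B F := by
  classical
  have key : 0 ≤ ip B (fun x => F x - g x) g := by
    by_contra hcon
    push Not at hcon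
    set a := -ip B (fun x => F x - g x) g with ha
    set b := nsq B g with hb
    have ha0 : 0 < a := by rw [ha]; linarith
    have hb0 : 0 ≤ b := nsq_nonneg _ _
    set t : ℝ := 1 ⊓ (a / (b + 1)) with ht
    have ht0 : 0 < t := lt_inf_iff.mpr ⟨one_pos, by positivity⟩
    have ht1 : t ≤ 1 := inf_le_left
    have ht2 : t * (b + 1) ≤ a := by
      have : t ≤ a / (b + 1) := inf_le_right
      rwa [le_div_iff₀ (by linarith)] at this
    have h1 := hg.min _ (hs t ht0.le ht1 g hg.mem (fun x => if x ∈ B then (1 - t) * g x else g x)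
      (fun x hx => if_pos hx) (fun x hx => if_neg hx))
    have e1 : nsq A (fun x => F x - if x ∈ B then (1 - t) * g x else g x) =
        nsq A (fun x => F x - g x) + (2 * t * ip B (fun x => F x - g x) g + t ^ 2 * b) := by
      have e2 : 2 * t * ip B (fun x => F x - g x) g + t ^ 2 * b =
          ∑ x ∈ A, if x ∈ B then 2 * t * ((F x - g x) * g x) + t ^ 2 * g x ^ 2 else 0 := by
        rw [← sum_filter]
        have : A.filter (fun x => x ∈ B) = B := by
          ext x; simp only [mem_filter]; exact ⟨fun h => h.2, fun h => ⟨hBA h, h⟩⟩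
        rw [this, sum_add_distrib, ← mul_sum, ← mul_sum]
        rfl
      rw [e2]
      unfold nsq
      rw [← sum_add_distrib]
      refine sum_congr rfl fun x _ => ?_
      by_cases hx : x ∈ B
      · simp only [if_pos hx]
        ring
      · simp only [if_neg hx]
        ring
    rw [e1] at h1
    nlinarith
  have e : nsq B F = nsq B g + nsq B (fun x => F x - g x) + 2 * ip B (fun x => F x - g x) g := by
    have : nsq B F = nsq B (fun x => (F x - g x) + g x) := nsq_congr fun x _ => by ring
    rw [this, nsq_add]; ring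
  linarith

/-- `B` any finite set of points, the energies over `A ∩ B` -/
theorem IsPr.line' [DecidableEq X] {A : Finset X} {D : Set (X → ℝ)} (hloc : Local A D)
    {F g : X → ℝ} (hg : IsPr A D F g) (B : Finset X)
    (hs : ∀ t : ℝ, 0 ≤ t → t ≤ 1 → ∀ f ∈ D, ∀ f' : X → ℝ, (∀ x ∈ B, f' x = (1 - t) * f x) →
      (∀ x, x ∉ B → f' x = f x) → f' ∈ D) :
    nsq (A ∩ B) g + nsq (A ∩ B) (fun x => F x - g x) ≤ nsq (A ∩ B) F := by
  refine hg.line inter_subset_left fun t h0 h1 f hf f' e1 e2 => ?_
  refine hloc (fun x => if x ∈ B then (1 - t) * f x else f x) f' (fun x hx => ?_)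
    (hs t h0 h1 f hf _ (fun x hx => if_pos hx) fun x hx => if_neg hx)
  by_cases hB : x ∈ B
  · simp only [if_pos hB]
    exact (e1 x (mem_inter.mpr ⟨hx, hB⟩)).symm
  · simp only [if_neg hB]
    exact (e2 x fun h => hB (mem_inter.mp h).2).symm

end

end Vale.Agent.P141.PL.H262
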