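import Vale.Agent.P141.PL.Defs
import Vale.Agent.P141.PL.H262.Proj

/-!
# P141: projections on nested convex classes over the tree of face cubes

`D k m` = class of nice functions on the cube `cb k m`: closed, convex, contains `0`, depends only
on the values on the cube, and a function which is nice on the eight children is nice on the cube.
`σ` = leaf function: `σ p` is the scale of the leaf cube which contains `p`.
-/

namespace Vale.Agent.P141.PL.H262

open Finset

noncomputable section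

theorem cx_cx (k : ℕ) (p : Pt) : cx 1 (cx k p) = cx (k + 1) p := by
  unfold cx
  simp only [ix_ix]

theorem cb_zero (m : Pt) : cb 0 m = {m} := by
  ext p
  rw [mem_cb, mem_singleton]
  unfold cx
  simp only [ix_zero]

/-- the child cubes are contained in the cube -/
theorem cb_child {k : ℕ} {m m' : Pt} (h : cx 1 m' = m) : cb k m' ⊆ cb (k + 1) m := by
  intro p hp
  rw [mem_cb] at hp ⊢
  rw [← cx_cx, hp, h]

theorem nsq_children (k : ℕ) (m : Pt) (f : Pt → ℝ) :
    nsq (cb (k + 1) m) f = ∑ m' ∈ cb 1 m, nsq (cb k m') f := by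
  unfold nsq
  rw [← sum_fiberwise_of_maps_to (s := cb (k + 1) m) (t := cb 1 m) (g := cx k)]
  · refine sum_congr rfl fun m' hm' => ?_
    refine sum_congr ?_ fun _ _ => rfl
    ext p
    rw [mem_filter, mem_cb, mem_cb]
    rw [mem_cb] at hm'
    constructor
    · exact fun h => h.2
    · intro h
      exact ⟨by rw [← cx_cx, h, hm'], h⟩
  · intro p hp
    rw [mem_cb] at hp ⊢
    rw [cx_cx, hp]

theorem ip_children (k : ℕ) (m : Pt) (f g : Pt → ℝ) :
    ip (cb (k + 1) m) f g = ∑ m' ∈ cb 1 m, ip (cb k m') f g := by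
  unfold ip
  rw [← sum_fiberwise_of_maps_to (s := cb (k + 1) m) (t := cb 1 m) (g := cx k)]
  · refine sum_congr rfl fun m' hm' => ?_
    refine sum_congr ?_ fun _ _ => rfl
    ext p
    rw [mem_filter, mem_cb, mem_cb]
    rw [mem_cb] at hm'
    constructor
    · exact fun h => h.2
    · intro h
      exact ⟨by rw [← cx_cx, h, hm'], h⟩
  · intro p hp
    rw [mem_cb] at hp ⊢
    rw [cx_cx, hp]

/-- a tree of nice classes -/
structure Nice (D : ℕ → Pt → Set (Pt → ℝ)) : Prop where
  cc : ∀ k m, CC (cb k m) (D k m)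
  glue : ∀ k m g, (∀ m', cx 1 m' = m → g ∈ D k m') → g ∈ D (k + 1) m

variable {D : ℕ → Pt → Set (Pt → ℝ)}

/-- the projection of `F` on `D k m` -/
def pr (hD : Nice D) (k : ℕ) (m : Pt) (F : Pt → ℝ) : Pt → ℝ :=
  Classical.choose (exists_isPr (hD.cc k m) F)

theorem isPr_pr (hD : Nice D) (k : ℕ) (m : Pt) (F : Pt → ℝ) :
    IsPr (cb k m) (D k m) F (pr hD k m F) :=
  Classical.choose_spec (exists_isPr (hD.cc k m) F)

/-- leaf functions -/
def Leaf (σ : Pt → ℕ) : Prop := ∀ p q : Pt, cx (σ p) q = cx (σ p) p → σ q = σ p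

/-- the glued leaf residual -/
def gl (hD : Nice D) (σ : Pt → ℕ) (F : Pt → ℝ) : Pt → ℝ :=
  fun p => pr hD (σ p) (cx (σ p) p) F p

/-- either the cube is a leaf or all leaves are smaller -/
theorem leaf_cases {σ : Pt → ℕ} (hσ : Leaf σ) {k : ℕ} {m : Pt}
    (h : ∀ p ∈ cb (k + 1) m, σ p ≤ k + 1) :
    (∀ p ∈ cb (k + 1) m, σ p = k + 1) ∨ (∀ p ∈ cb (k + 1) m, σ p ≤ k) := by
  by_cases hex : ∃ p ∈ cb (k + 1) m, σ p = k + 1
  · obtain ⟨p, hp, hpk⟩ := hex
    left
    intro q hq
    rw [← hpk]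
    refine hσ p q ?_
    rw [hpk, mem_cb.mp hp, mem_cb.mp hq]
  · right
    push Not at hex
    intro p hp
    have h1 := h p hp
    have h2 := hex p hp
    omega

theorem gl_leaf (hD : Nice D) {σ : Pt → ℕ} {k : ℕ} {m : Pt} (F : Pt → ℝ)
    (h : ∀ p ∈ cb k m, σ p = k) : ∀ p ∈ cb k m, gl hD σ F p = pr hD k m F p := by
  intro p hp
  unfold gl
  rw [h p hp, mem_cb.mp hp]

/-- the glued residual is nice on every cube above the leaves -/
theorem gl_mem (hD : Nice D) {σ : Pt → ℕ} (hσ : Leaf σ) (F : Pt → ℝ) :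
    ∀ (k : ℕ) (m : Pt), (∀ p ∈ cb k m, σ p ≤ k) → gl hD σ F ∈ D k m := by
  intro k
  induction k with
  | zero =>
    intro m h
    refine (hD.cc 0 m).loc _ _ (fun p hp => ?_) (isPr_pr hD 0 m F).mem
    exact (gl_leaf hD F (fun p hp => Nat.le_zero.mp (h p hp)) p hp).symm
  | succ k ih =>
    intro m h
    rcases leaf_cases hσ h with h1 | h1
    · exact (hD.cc (k + 1) m).loc _ _ (fun p hp => (gl_leaf hD F h1 p hp).symm)
        (isPr_pr hD (k + 1) m F).mem
    · exact hD.glue k m _ fun m' hm' => ih m' fun p hp => h1 p (cb_child hm' hp)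

/-- energy of the structured part and of the glued residual -/
theorem gl_energy (hD : Nice D) {σ : Pt → ℕ} (hσ : Leaf σ) (F : Pt → ℝ) :
    ∀ (k : ℕ) (m : Pt), (∀ p ∈ cb k m, σ p ≤ k) →
      nsq (cb k m) (fun p => F p - gl hD σ F p) + nsq (cb k m) (gl hD σ F) ≤ nsq (cb k m) F := by
  have base : ∀ (k : ℕ) (m : Pt), (∀ p ∈ cb k m, σ p = k) →
      nsq (cb k m) (fun p => F p - gl hD σ F p) + nsq (cb k m) (gl hD σ F) ≤ nsq (cb k m) F := by
    intro k m h
    have e := gl_leaf hD F h
    have h1 := (isPr_pr hD k m F).pyth (hD.cc k m).convex (hD.cc k m).zero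
    have e1 : nsq (cb k m) (fun p => F p - gl hD σ F p) =
        nsq (cb k m) (fun p => F p - pr hD k m F p) := nsq_congr fun p hp => by rw [e p hp]
    have e2 : nsq (cb k m) (gl hD σ F) = nsq (cb k m) (fun p => 0 - pr hD k m F p) := by
      unfold nsq
      exact sum_congr rfl fun p hp => by rw [e p hp]; ring
    have e3 : nsq (cb k m) (fun p => F p - 0) = nsq (cb k m) F :=
      nsq_congr fun p _ => by ring
    rw [e1, e2]
    linarith
  intro k
  induction k with
  | zero => exact fun m h => base 0 m fun p hp => Nat.le_zero.mp (h p hp)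
  | succ k ih =>
    intro m h
    rcases leaf_cases hσ h with h1 | h1
    · exact base _ m h1
    · rw [nsq_children, nsq_children, nsq_children, ← sum_add_distrib]
      refine sum_le_sum fun m' hm' => ih m' fun p hp => h1 p ?_
      exact cb_child (mem_cb.mp hm') hp

/-- movement: finer leaves `τ ≤ σ` -/
theorem gl_move (hD : Nice D) {σ τ : Pt → ℕ} (hσ : Leaf σ) (hτ : Leaf τ) (F : Pt → ℝ) :
    ∀ (k : ℕ) (m : Pt), (∀ p ∈ cb k m, σ p ≤ k) → (∀ p ∈ cb k m, τ p ≤ σ p) →
      nsq (cb k m) (fun p => F p - gl hD σ F p) +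
        nsq (cb k m) (fun p => gl hD τ F p - gl hD σ F p) ≤
          nsq (cb k m) (fun p => F p - gl hD τ F p) := by
  have base : ∀ (k : ℕ) (m : Pt), (∀ p ∈ cb k m, σ p = k) → (∀ p ∈ cb k m, τ p ≤ σ p) →
      nsq (cb k m) (fun p => F p - gl hD σ F p) +
        nsq (cb k m) (fun p => gl hD τ F p - gl hD σ F p) ≤
          nsq (cb k m) (fun p => F p - gl hD τ F p) := by
    intro k m h h'
    have e := gl_leaf hD F h
    have hm : gl hD τ F ∈ D k m := gl_mem hD hτ F k m fun p hp => by
      have := h' p hp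
      rw [h p hp] at this
      exact this
    have h1 := (isPr_pr hD k m F).pyth (hD.cc k m).convex hm
    have e1 : nsq (cb k m) (fun p => F p - gl hD σ F p) =
        nsq (cb k m) (fun p => F p - pr hD k m F p) := nsq_congr fun p hp => by rw [e p hp]
    have e2 : nsq (cb k m) (fun p => gl hD τ F p - gl hD σ F p) =
        nsq (cb k m) (fun p => gl hD τ F p - pr hD k m F p) :=
      nsq_congr fun p hp => by rw [e p hp]
    rw [e1, e2]
    exact h1
  intro k
  induction k with
  | zero => exact fun m h h' => base 0 m (fun p hp => Nat.le_zero.mp (h p hp)) h'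
  | succ k ih =>
    intro m h h'
    rcases leaf_cases hσ h with h1 | h1
    · exact base _ m h1 h'
    · rw [nsq_children, nsq_children, nsq_children, ← sum_add_distrib]
      refine sum_le_sum fun m' hm' => ih m' (fun p hp => h1 p ?_) fun p hp => h' p ?_
      · exact cb_child (mem_cb.mp hm') hp
      · exact cb_child (mem_cb.mp hm') hp

/-- the projection on one cube and the glued residual of leaves below it -/
theorem pr_move (hD : Nice D) {τ : Pt → ℕ} (hτ : Leaf τ) (F : Pt → ℝ) (k : ℕ) (m : Pt)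
    (h : ∀ p ∈ cb k m, τ p ≤ k) :
    nsq (cb k m) (fun p => F p - pr hD k m F p) +
      nsq (cb k m) (fun p => gl hD τ F p - pr hD k m F p) ≤
        nsq (cb k m) (fun p => F p - gl hD τ F p) :=
  (isPr_pr hD k m F).pyth (hD.cc k m).convex (gl_mem hD hτ F k m h)

/-- the structured part of the leaves against a function which is nice on every leaf -/
theorem gl_dual (hD : Nice D) {σ : Pt → ℕ} (hσ : Leaf σ) (F : Pt → ℝ) {B : ℝ} (hB : 0 < B)
    {h : Pt → ℝ} :
    ∀ (k : ℕ) (m : Pt), (∀ p ∈ cb k m, σ p ≤ k) →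
      (∀ p ∈ cb k m, (fun q => B⁻¹ * h q) ∈ D (σ p) (cx (σ p) p)) →
      ip (cb k m) (fun p => F p - gl hD σ F p) h ≤ B * (nsq (cb k m) F / 4) := by
  have base : ∀ (k : ℕ) (m : Pt), (∀ p ∈ cb k m, σ p = k) →
      (∀ p ∈ cb k m, (fun q => B⁻¹ * h q) ∈ D (σ p) (cx (σ p) p)) →
      ip (cb k m) (fun p => F p - gl hD σ F p) h ≤ B * (nsq (cb k m) F / 4) := by
    intro k m h1 h2
    have hne : (cb k m).Nonempty := by
      rw [← card_pos, card_cb]; positivity
    obtain ⟨p, hp⟩ := hne
    have h3 := h2 p hp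
    rw [h1 p hp, mem_cb.mp hp] at h3
    have e := gl_leaf hD F h1
    have h4 := (isPr_pr hD k m F).pair (hD.cc k m).convex hB h3
    rwa [ip_congr (A := cb k m) (g := fun p => F p - pr hD k m F p) (g' := h)
      (fun p hp => by rw [e p hp]) fun _ _ => rfl]
  intro k
  induction k with
  | zero => exact fun m h1 h2 => base 0 m (fun p hp => Nat.le_zero.mp (h1 p hp)) h2
  | succ k ih =>
    intro m h1 h2
    rcases leaf_cases hσ h1 with h3 | h3
    · exact base _ m h3 h2
    · rw [ip_children, nsq_children, sum_div, mul_sum]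
      refine sum_le_sum fun m' hm' => ih m' (fun p hp => h3 p ?_) fun p hp => h2 p ?_
      · exact cb_child (mem_cb.mp hm') hp
      · exact cb_child (mem_cb.mp hm') hp

/-- `D` is stable under damping on the set `B` -/
def Damp (D : ℕ → Pt → Set (Pt → ℝ)) (B : Finset Pt) : Prop :=
  ∀ (k : ℕ) (m : Pt) (t : ℝ), 0 ≤ t → t ≤ 1 → ∀ f ∈ D k m, ∀ f' : Pt → ℝ,
    (∀ x ∈ B, f' x = (1 - t) * f x) → (∀ x, x ∉ B → f' x = f x) → f' ∈ D k m

theorem nsq_inter_children (k : ℕ) (m : Pt) (B : Finset Pt) (f : Pt → ℝ) :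
    nsq (cb (k + 1) m ∩ B) f = ∑ m' ∈ cb 1 m, nsq (cb k m' ∩ B) f := by
  have e : ∀ A : Finset Pt, nsq (A ∩ B) f = nsq A (fun p => if p ∈ B then f p else 0) := by
    intro A
    unfold nsq
    rw [← filter_mem_eq_inter, sum_filter]
    refine sum_congr rfl fun p _ => ?_
    by_cases hp : p ∈ B
    · simp only [if_pos hp]
    · simp only [if_neg hp]; ring
  rw [e, nsq_children]
  exact sum_congr rfl fun m' _ => (e _).symm

/-- line energies of the glued residual and of the structured part -/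
theorem gl_line (hD : Nice D) {σ : Pt → ℕ} (hσ : Leaf σ) (F : Pt → ℝ) {B : Finset Pt}
    (hB : Damp D B) :
    ∀ (k : ℕ) (m : Pt), (∀ p ∈ cb k m, σ p ≤ k) →
      nsq (cb k m ∩ B) (gl hD σ F) + nsq (cb k m ∩ B) (fun p => F p - gl hD σ F p) ≤
        nsq (cb k m ∩ B) F := by
  have base : ∀ (k : ℕ) (m : Pt), (∀ p ∈ cb k m, σ p = k) →
      nsq (cb k m ∩ B) (gl hD σ F) + nsq (cb k m ∩ B) (fun p => F p - gl hD σ F p) ≤
        nsq (cb k m ∩ B) F := by
    intro k m h
    have e := gl_leaf hD F h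
    have h1 := (isPr_pr hD k m F).line' (hD.cc k m).loc B (hB k m)
    have e1 : nsq (cb k m ∩ B) (gl hD σ F) = nsq (cb k m ∩ B) (pr hD k m F) :=
      nsq_congr fun p hp => e p (mem_inter.mp hp).1
    have e2 : nsq (cb k m ∩ B) (fun p => F p - gl hD σ F p) =
        nsq (cb k m ∩ B) (fun p => F p - pr hD k m F p) :=
      nsq_congr fun p hp => by rw [e p (mem_inter.mp hp).1]
    rw [e1, e2]
    exact h1
  intro k
  induction k with
  | zero => exact fun m h => base 0 m fun p hp => Nat.le_zero.mp (h p hp)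
  | succ k ih =>
    intro m h
    rcases leaf_cases hσ h with h1 | h1
    · exact base _ m h1
    · rw [nsq_inter_children, nsq_inter_children, nsq_inter_children, ← sum_add_distrib]
      refine sum_le_sum fun m' hm' => ih m' fun p hp => h1 p ?_
      exact cb_child (mem_cb.mp hm') hp

end

end Vale.Agent.P141.PL.H262
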